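import Vale.Agent.P237.Exact.Position
import Vale.Agent.P237.Uniform.Assembly

/-!
# P237: exact Petty step with equality from a statement about John positions

`StepProp m`: if no contact has a strict profile inequality then some profile is that of the ball.
It is a hypothesis here; every averaged profile lemma is to be plugged in as a proof of it.
-/

open MeasureTheory Set Filter Topology Metric
open scoped RealInnerProductSpace Pointwise

namespace Vale.Agent.P237.Exact

open Full

variable {m : ℕ}

/-- The profile statement for all contacts of one position at once. -/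
def StepProp (m : ℕ) : Prop :=
  ∀ P : Position m, (∀ k, P.mom k m ^ (m + 1) ≤ profileConst m * P.mom k (m + 1) ^ m) →
    ∃ k, ∀ t ∈ Ioo (-1 : ℝ) 1, P.prof k t ≤ √(1 - t ^ 2)

/-- The regime of large volume is automatic. -/
theorem stepProp_of_small (hm : 1 ≤ m)
    (h : ∀ P : Position m, (volume P.L).toReal ≤ profileConst m ^ (m + 2) →
      (∀ k, P.mom k m ^ (m + 1) ≤ profileConst m * P.mom k (m + 1) ^ m) →
      ∃ k, ∀ t ∈ Ioo (-1 : ℝ) 1, P.prof k t ≤ √(1 - t ^ 2)) : StepProp m := fun P hP => by
  rcases le_or_gt (volume P.L).toReal (profileConst m ^ (m + 2)) with hv | hv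
  · exact h P hv hP
  · obtain ⟨k, hk⟩ := P.large hm (Uniform.profileConst_nonneg m) hv
    exact absurd (hP k) (not_le.2 hk)

/-- At a symmetric minimiser. -/
lemma symm_min_exact {j : ℕ} (hlow : PettyBound j) (hP : StepProp (j + 1))
    {Z : Set (E (j + 3))} (hZ : Cen Z) (hs : ∀ x ∈ Z, -x ∈ Z) (hmin : Full.IsMin Z) :
    petty (j + 1) ≤ ratio Z ∧ (ratio Z = petty (j + 1) →
      ∃ (T : E (j + 3) ≃L[ℝ] E (j + 3)) (r : ℝ), 0 < r ∧ Z = T '' closedBall 0 r) := by
  obtain ⟨T, P, hPL⟩ := exists_position (m := j + 1) hZ hs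
  have hratio : ratio P.L = ratio Z := by rw [hPL]; exact ratio_image T hZ.toBody
  have hLmin : Full.IsMin P.L := fun K h1 h2 => hratio ▸ hmin K h1 h2
  have hκ : 0 < Statement.ballVol (j + 1 + 1) := ballVol_pos (j + 1)
  have hpj : 0 < petty j := by
    rw [petty]; exact div_pos (pow_pos (ballVol_pos j) _) (pow_pos (ballVol_pos (j + 1)) _)
  have key : ∀ k, petty j * P.mom k (j + 1) ^ (j + 1 + 1) ≤
      ratio P.L * P.mom k (j + 1 + 1) ^ (j + 1) := fun k => by
    have hcl := ratio_mul_eq P.cen (symm_min_structure P.cen P.symm hLmin) (P.u k)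
    have hsh := shadow_int (m := j + 1) (by omega) hpj.le hlow P.cen.toBody ⟨0, P.cen.int⟩ (P.F k)
    rw [← hcl, P.supp_eq k, mul_one, P.slice_integral (Nat.succ_ne_zero j), P.volume_eq k,
      mul_pow] at hsh
    refine le_of_mul_le_mul_left ?_ (pow_pos hκ (j + 1))
    linarith
  have hball : ratio P.L ≤ petty (j + 1) → P.L = closedBall 0 1 := fun hle => by
    obtain ⟨k, hk⟩ := hP P fun k => by
      refine le_of_mul_le_mul_left ((key k).trans ?_) hpj
      rw [← mul_assoc, ← petty_succ_eq]
      exact mul_le_mul_of_nonneg_right hle (pow_nonneg (P.mom_nonneg k _) _)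
    exact P.eq_ball hk
  refine ⟨?_, fun heq => ⟨T.symm, 1, one_pos, ?_⟩⟩
  · by_contra hlt
    have hlt' := not_le.1 hlt
    rw [← hratio] at hlt'
    have hb := hball hlt'.le
    rw [hb, ratio_unit_ball] at hlt'
    exact lt_irrefl _ hlt'
  · rw [← hball (hratio ▸ heq).le, hPL, image_image]
    simp

/-- **The exact step with the equality case.** -/
theorem petty_step {j : ℕ} (hlow : PettyBound j) (hP : StepProp (j + 1))
    {K : Set (E (j + 3))} (hK : Body K) (hi : (interior K).Nonempty) :
    petty (j + 1) ≤ ratio K ∧ (ratio K = petty (j + 1) ↔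
      ∃ (a : E (j + 3)) (S : E (j + 3) →ₗ[ℝ] E (j + 3)),
        Function.Injective S ∧ K = a +ᵥ S '' closedBall 0 1) := by
  have hsb : ∀ Z : Set (E (j + 3)), Cen Z → (∀ x ∈ Z, -x ∈ Z) → Full.IsMin Z →
      petty (j + 1) ≤ ratio Z ∧ (ratio Z = petty (j + 1) →
        ∃ (T : E (j + 3) ≃L[ℝ] E (j + 3)) (r : ℝ), 0 < r ∧ Z = T '' closedBall 0 r) :=
    fun Z hZ hs hmin => symm_min_exact hlow hP hZ hs hmin
  obtain ⟨Z₀, hZ₀, hs₀, hmin₀, -⟩ := exists_symm_minimiser (j + 1)
  have hbound : ∀ M : Set (E (j + 3)), Body M → (interior M).Nonempty →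
      petty (j + 1) ≤ ratio M := fun M hM hMi =>
    (hsb Z₀ hZ₀ hs₀ hmin₀).1.trans (hmin₀ M hM hMi)
  refine ⟨hbound K hK hi, fun heq => ?_, ?_⟩
  · obtain ⟨g, Z, hKZ, hZ, hs, hmin, -⟩ := minimiser_structure (m := j + 1) hK hi
      fun L hL hLi => heq ▸ hbound L hL hLi
    have he : ratio Z = petty (j + 1) := by rw [← heq, hKZ, ratio_vadd hZ.toBody]
    obtain ⟨T, r, hr, hTr⟩ := (hsb Z hZ hs hmin).2 he
    refine ⟨g, r • (T.toLinearEquiv : E (j + 3) →ₗ[ℝ] E (j + 3)),
      fun x y h => T.injective (smul_right_injective _ hr.ne' h), ?_⟩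
    rw [hKZ, hTr]
    congr 1
    ext y
    simp only [mem_image, mem_closedBall_zero_iff, LinearMap.smul_apply, LinearEquiv.coe_coe]
    constructor
    · rintro ⟨x, hx, rfl⟩
      refine ⟨r⁻¹ • x, ?_, ?_⟩
      · rw [norm_smul, Real.norm_eq_abs, abs_of_pos (inv_pos.2 hr), inv_mul_le_one₀ hr]; exact hx
      · rw [map_smul, smul_inv_smul₀ hr.ne']; rfl
    · rintro ⟨x, hx, rfl⟩
      refine ⟨r • x, ?_, by rw [map_smul]; rfl⟩
      rw [norm_smul, Real.norm_eq_abs, abs_of_pos hr]
      exact mul_le_of_le_one_right hr.le hx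
  · rintro ⟨a, S, hS, rfl⟩
    set T := (LinearEquiv.ofInjectiveEndo S hS).toContinuousLinearEquiv
    have e : S '' closedBall (0 : E (j + 3)) 1 = T '' closedBall 0 1 := rfl
    have hb : Body (T '' closedBall (0 : E (j + 3)) 1) :=
      ⟨(convex_closedBall _ _).linear_image (T.toLinearEquiv : E (j + 3) →ₗ[ℝ] E (j + 3)),
        (isCompact_closedBall _ _).image T.continuous⟩
    rw [e, ratio_vadd hb, ratio_image T ⟨convex_closedBall _ _, isCompact_closedBall _ _⟩,
      ratio_unit_ball]

theorem pettyBound_succ_exact {j : ℕ} (hlow : PettyBound j) (hP : StepProp (j + 1)) :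
    PettyBound (j + 1) := fun K hK hi => by
  have h := (petty_step hlow hP hK hi).1
  have hV : 0 < (volume K).toReal := ENNReal.toReal_pos
    ((isOpen_interior.measure_pos volume hi).trans_le (measure_mono interior_subset)).ne'
    hK.cpt.measure_lt_top.ne
  rwa [ratio, show j + 1 + 2 - 1 = j + 1 + 1 by omega, le_div_iff₀ (pow_pos hV _)] at h

/-- **Exact Petty in the statement notions** from the step statements in dimensions `4, …, n`. -/
theorem petty_exact_upto (j : ℕ) (hP : ∀ m, 2 ≤ m → m ≤ j + 1 → StepProp m)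
    (K : Set (Statement.Space (j + 3))) (hK : Statement.IsConvexBody K) :
    Statement.pettyConst (j + 3) * Statement.vol K ^ (j + 2) ≤
        Statement.vol (Statement.projectionBody K) ∧
      (Statement.vol (Statement.projectionBody K) =
          Statement.pettyConst (j + 3) * Statement.vol K ^ (j + 2) ↔
        ∃ (a : Statement.Space (j + 3)) (T : Statement.Space (j + 3) →ₗ[ℝ] Statement.Space (j + 3)),
          Function.Injective T ∧ K = (fun x => a + T x) '' closedBall 0 1) := by
  obtain ⟨hc, hk, hi⟩ := hK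
  cases j with
  | zero =>
    rw [pettyConst_three]
    exact petty_space ⟨hc, hk, hi⟩
  | succ j =>
    have hlow : ∀ i, i ≤ j → PettyBound (i + 1) := by
      intro i
      induction i with
      | zero => exact fun _ => fun L hL hLi => by simpa using Uniform.pettyWith_three L hL hLi
      | succ i ih =>
        exact fun h => pettyBound_succ_exact (ih (by omega)) (hP (i + 1 + 1) (by omega) (by omega))
    obtain ⟨h, heq⟩ := petty_step (hlow j le_rfl) (hP (j + 1 + 1) (by omega) le_rfl) ⟨hc, hk⟩ hi
    have hV : 0 < (volume K).toReal := ENNReal.toReal_pos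
      ((isOpen_interior.measure_pos volume hi).trans_le (measure_mono interior_subset)).ne'
      hk.measure_lt_top.ne
    have hp : petty (j + 1 + 1) = Statement.pettyConst (j + 1 + 3) := rfl
    rw [projectionBody_eq, Statement.vol, Statement.vol]
    rw [ratio, show j + 1 + 3 - 1 = j + 1 + 2 from rfl, hp] at h heq
    rw [le_div_iff₀ (pow_pos hV _)] at h
    rw [div_eq_iff (pow_pos hV _).ne'] at heq
    refine ⟨h, heq.trans (exists_congr fun a => exists_congr fun T => and_congr_right fun _ => ?_)⟩
    rw [← image_vadd, image_image]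
    rfl

end Vale.Agent.P237.Exact
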