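import Vale.Agent.P237.Exact.Position

/-!
# P237: the entropies of the Gaussianised marginals at the contacts

For the density proportional to `exp (-gauge² / 2)`, the weighted entropies of the marginals in the
contact directions are bounded by the entropy of the whole (geometric Brascamp–Lieb and Jensen).
-/

open MeasureTheory Set Filter Topology Real
open scoped RealInnerProductSpace ENNReal Pointwise

namespace Vale.Agent.P237.Exact

variable {m : ℕ}

/-- The mass of `exp (-gauge² / 2)`. -/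
noncomputable def gaussZ (P : Position m) : ℝ := ∫ x, exp (-(gauge P.L x) ^ 2 / 2)

/-- The marginal density of `exp (-gauge² / 2)` in the direction of the `k`-th contact. -/
noncomputable def qd (P : Position m) (k : Fin P.M) (y : ℝ) : ℝ :=
  Statement.ballVol (m + 1) / gaussZ P *
    ∫ s in Ioi |y|, s ^ (m + 2) * exp (-s ^ 2 / 2) * P.prof k (|y| / s) ^ (m + 1)

namespace EntropyBL

/-- `∫ s ^ (j + 1) exp (-s² / 2)` over the half line. -/
noncomputable def radI (j : ℕ) : ℝ := ∫ s in Ioi (0 : ℝ), s ^ (j + 1) * exp (-s ^ 2 / 2)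

lemma rad_integrable (j : ℕ) :
    IntegrableOn (fun s : ℝ => s ^ j * exp (-s ^ 2 / 2)) (Ioi 0) := by
  have h := integrableOn_rpow_mul_exp_neg_mul_sq (b := 1 / 2) (by norm_num) (s := (j : ℝ))
    (lt_of_lt_of_le (by norm_num) (Nat.cast_nonneg j))
  refine h.congr_fun (fun x _ => ?_) measurableSet_Ioi
  simp only [Real.rpow_natCast]
  congr 2
  ring

lemma radI_eq (j : ℕ) :
    radI j = (1 / 2 : ℝ) ^ (-((j : ℝ) + 2) / 2) * (1 / 2) * Real.Gamma (((j : ℝ) + 2) / 2) := by
  have hq : (-1 : ℝ) < ((j + 1 : ℕ) : ℝ) :=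
    lt_of_lt_of_le (by norm_num : (-1 : ℝ) < 0) (Nat.cast_nonneg _)
  have h := integral_rpow_mul_exp_neg_mul_rpow (p := 2) (q := ((j + 1 : ℕ) : ℝ)) (b := 1 / 2)
    two_pos hq (by norm_num)
  rw [show ((j + 1 : ℕ) : ℝ) + 1 = (j : ℝ) + 2 by push_cast; ring] at h
  rw [radI, ← h]
  refine setIntegral_congr_fun measurableSet_Ioi fun x _ => ?_
  simp only [Real.rpow_natCast, show (2 : ℝ) = ((2 : ℕ) : ℝ) by norm_num]
  congr 2
  push_cast
  ring

lemma radI_pos (j : ℕ) : 0 < radI j := by
  rw [radI_eq]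
  have : 0 < Real.Gamma (((j : ℝ) + 2) / 2) := Real.Gamma_pos_of_pos (by positivity)
  positivity

lemma radI_succ (j : ℕ) : radI (j + 2) = ((j : ℝ) + 2) * radI j := by
  rw [radI_eq, radI_eq]
  push_cast
  rw [show ((j : ℝ) + 2 + 2) / 2 = ((j : ℝ) + 2) / 2 + 1 by ring,
    Real.Gamma_add_one (by positivity), show -((j : ℝ) + 2 + 2) / 2 = -((j : ℝ) + 2) / 2 + -1 by ring,
    Real.rpow_add (by norm_num), Real.rpow_neg_one]
  ring

lemma tendsto_poly_exp (a : ℝ) :
    Tendsto (fun s : ℝ => -((a * s ^ 2 + 2 * a ^ 2) * exp (-s ^ 2 / 2))) atTop (𝓝 0) := by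
  have h0 : Tendsto (fun s : ℝ => s ^ 2 / 2) atTop atTop :=
    (tendsto_pow_atTop two_ne_zero).atTop_div_const two_pos
  have h1 := ((Real.tendsto_pow_mul_exp_neg_atTop_nhds_zero 1).comp h0).const_mul (2 * a)
  have h2 := ((Real.tendsto_pow_mul_exp_neg_atTop_nhds_zero 0).comp h0).const_mul (2 * a ^ 2)
  have h3 := (h1.add h2).neg
  simp only [mul_zero, add_zero, neg_zero] at h3
  refine h3.congr fun s => ?_
  simp only [Function.comp_apply, pow_one, pow_zero, one_mul, neg_div]
  ring

lemma layer_one {G : ℝ} (hG : 0 ≤ G) :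
    ∫⁻ s in Ioi G, ENNReal.ofReal (s * exp (-s ^ 2 / 2)) = ENNReal.ofReal (exp (-G ^ 2 / 2)) := by
  have hd : ∀ s ∈ Ici G, HasDerivAt (fun s : ℝ => -exp (-s ^ 2 / 2)) (s * exp (-s ^ 2 / 2)) s :=
    fun s _ => (((hasDerivAt_pow 2 s).neg.div_const 2).exp).neg.congr_deriv (by simp; ring)
  have hpos : ∀ s ∈ Ioi G, 0 ≤ s * exp (-s ^ 2 / 2) := fun s hs =>
    mul_nonneg (hG.trans (mem_Ioi.1 hs).le) (exp_pos _).le
  have ht : Tendsto (fun s : ℝ => -exp (-s ^ 2 / 2)) atTop (𝓝 0) := by
    have h0 : Tendsto (fun s : ℝ => s ^ 2 / 2) atTop atTop :=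
      (tendsto_pow_atTop two_ne_zero).atTop_div_const two_pos
    have := ((Real.tendsto_pow_mul_exp_neg_atTop_nhds_zero 0).comp h0).neg
    simp only [neg_zero] at this
    refine this.congr fun s => ?_
    simp [neg_div]
  rw [← ofReal_integral_eq_lintegral_ofReal (integrableOn_Ioi_deriv_of_nonneg' hd hpos ht)
    ((ae_restrict_iff' measurableSet_Ioi).2 (Eventually.of_forall hpos)),
    integral_Ioi_of_hasDerivAt_of_nonneg' hd hpos ht]
  simp

lemma layer_three {G : ℝ} (hG : 0 ≤ G) :
    ∫⁻ s in Ioi G, ENNReal.ofReal (s ^ 3 * exp (-s ^ 2 / 2)) =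
      ENNReal.ofReal ((G ^ 2 + 2) * exp (-G ^ 2 / 2)) := by
  have hd : ∀ s ∈ Ici G, HasDerivAt (fun s : ℝ => -((1 * s ^ 2 + 2 * 1 ^ 2) * exp (-s ^ 2 / 2)))
      (s ^ 3 * exp (-s ^ 2 / 2)) s := fun s _ =>
    ((((hasDerivAt_pow 2 s).const_mul 1).add_const (2 * 1 ^ 2)).mul
      (((hasDerivAt_pow 2 s).neg.div_const 2).exp)).neg.congr_deriv (by simp; ring)
  have hpos : ∀ s ∈ Ioi G, 0 ≤ s ^ 3 * exp (-s ^ 2 / 2) := fun s hs =>
    mul_nonneg (pow_nonneg (hG.trans (mem_Ioi.1 hs).le) 3) (exp_pos _).le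
  rw [← ofReal_integral_eq_lintegral_ofReal
    (integrableOn_Ioi_deriv_of_nonneg' hd hpos (tendsto_poly_exp 1))
    ((ae_restrict_iff' measurableSet_Ioi).2 (Eventually.of_forall hpos)),
    integral_Ioi_of_hasDerivAt_of_nonneg' hd hpos (tendsto_poly_exp 1)]
  simp

/-- Integrating the tails over the values of a nonnegative function. -/
lemma lintegral_tail {α : Type*} [MeasurableSpace α] {μ : Measure α} [SFinite μ] {G : α → ℝ}
    (hG : Measurable G) (hG0 : ∀ a, 0 ≤ G a) {ψ : ℝ → ℝ≥0∞} (hψ : Measurable ψ) :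
    ∫⁻ a, (∫⁻ s in Ioi (G a), ψ s) ∂μ = ∫⁻ s in Ioi (0 : ℝ), ψ s * μ {a | G a ≤ s} := by
  have e : ∀ a, ∫⁻ s in Ioi (G a), ψ s =
      ∫⁻ s in Ioi (0 : ℝ), {q : α × ℝ | G q.1 ≤ q.2}.indicator (fun q => ψ q.2) (a, s) := by
    intro a
    rw [show (fun s => {q : α × ℝ | G q.1 ≤ q.2}.indicator (fun q => ψ q.2) (a, s)) =
      (Ici (G a)).indicator ψ from funext fun s => by simp [Set.indicator, Set.mem_Ici],
      setLIntegral_indicator measurableSet_Ici]
    refine setLIntegral_congr ?_
    rcases eq_or_lt_of_le (hG0 a) with h | h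
    · rw [← h, inter_eq_right.2 Ioi_subset_Ici_self]
      exact Filter.EventuallyEq.rfl
    · rw [inter_eq_left.2 (show Ici (G a) ⊆ Ioi 0 from fun s hs => mem_Ioi.2 (h.trans_le hs))]
      exact Ioi_ae_eq_Ici
  rw [lintegral_congr e, lintegral_lintegral_swap]
  · refine lintegral_congr fun s => ?_
    rw [show (fun a => {q : α × ℝ | G q.1 ≤ q.2}.indicator (fun q => ψ q.2) (a, s)) =
      {a | G a ≤ s}.indicator (fun _ => ψ s) from funext fun a => by simp [Set.indicator],
      lintegral_indicator (measurableSet_le hG measurable_const), setLIntegral_const]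
  · exact ((hψ.comp measurable_snd).indicator
      (measurableSet_le (hG.comp measurable_fst) measurable_snd)).aemeasurable

lemma gauge_le_set {N : ℕ} {K : Set (E N)} (hK : Cen K) {s : ℝ} (hs : 0 < s) :
    {x | gauge K x ≤ s} = s • K := by
  ext x
  rw [Set.mem_smul_set_iff_inv_smul_mem₀ hs.ne', mem_setOf_eq]
  have h1 := gauge_le_one_iff_mem_closure hK.conv hK.nhds_zero (x := s⁻¹ • x)
  rw [hK.cpt.isClosed.closure_eq, gauge_smul_of_nonneg (inv_nonneg.2 hs.le), smul_eq_mul,
    inv_mul_le_iff₀ hs, mul_one] at h1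
  exact h1

/-- Layer cake for functions of the gauge. -/
lemma lintegral_gauge {N : ℕ} {K : Set (E N)} (hK : Cen K) {φ : ℝ → ℝ} {j : ℕ}
    (hlay : ∀ G, 0 ≤ G →
      ∫⁻ s in Ioi G, ENNReal.ofReal (s ^ (j + 1) * exp (-s ^ 2 / 2)) = ENNReal.ofReal (φ G)) :
    ∫⁻ x, ENNReal.ofReal (φ (gauge K x)) = ENNReal.ofReal ((volume K).toReal * radI (N + j)) := by
  rw [← lintegral_congr fun x => hlay (gauge K x) (gauge_nonneg _),
    lintegral_tail hK.continuous_g.measurable (fun x => gauge_nonneg _) (by fun_prop)]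
  have e : ∀ s ∈ Ioi (0 : ℝ),
      ENNReal.ofReal (s ^ (j + 1) * exp (-s ^ 2 / 2)) * volume {x | gauge K x ≤ s} =
        ENNReal.ofReal ((volume K).toReal * (s ^ (N + j + 1) * exp (-s ^ 2 / 2))) := by
    intro s hs
    have hs0 : 0 < s := hs
    rw [gauge_le_set hK hs0, Measure.addHaar_smul_of_nonneg _ hs0.le, finrank_euclideanSpace_fin,
      ← ENNReal.ofReal_toReal hK.cpt.measure_lt_top.ne, ← ENNReal.ofReal_mul (by positivity),
      ← ENNReal.ofReal_mul (by positivity)]
    rw [ENNReal.toReal_ofReal ENNReal.toReal_nonneg]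
    congr 1
    ring
  rw [setLIntegral_congr_fun measurableSet_Ioi e, radI, ← integral_const_mul,
    ← ofReal_integral_eq_lintegral_ofReal ((rad_integrable _).const_mul _)]
  exact (ae_restrict_iff' measurableSet_Ioi).2 (Eventually.of_forall fun s hs =>
    mul_nonneg ENNReal.toReal_nonneg (mul_nonneg (pow_nonneg (le_of_lt hs) _) (exp_pos _).le))

lemma integral_gauge {N : ℕ} {K : Set (E N)} (hK : Cen K) :
    Integrable (fun x => exp (-(gauge K x) ^ 2 / 2)) ∧
      ∫ x, exp (-(gauge K x) ^ 2 / 2) = (volume K).toReal * radI N := by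
  have hc : Continuous fun x => exp (-(gauge K x) ^ 2 / 2) := by
    have := hK.continuous_g
    fun_prop
  have h0 : ∀ x, 0 ≤ exp (-(gauge K x) ^ 2 / 2) := fun x => (exp_pos _).le
  have h := lintegral_gauge hK (j := 0) (φ := fun G => exp (-G ^ 2 / 2))
    (fun G hG => by simpa using layer_one hG)
  rw [add_zero] at h
  refine ⟨⟨hc.aestronglyMeasurable, ?_⟩, ?_⟩
  · rw [hasFiniteIntegral_iff_ofReal (Eventually.of_forall h0), h]
    exact ENNReal.ofReal_lt_top
  · rw [integral_eq_lintegral_of_nonneg_ae (Eventually.of_forall h0) hc.aestronglyMeasurable, h,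
      ENNReal.toReal_ofReal (mul_nonneg ENNReal.toReal_nonneg (radI_pos N).le)]

variable (P : Position m)

lemma gaussZ_radI : gaussZ P = (volume P.L).toReal * radI (m + 2) := (integral_gauge P.cen).2

lemma gaussZ_pos : 0 < gaussZ P := by
  rw [gaussZ_radI]
  exact mul_pos P.volume_pos (radI_pos _)

/-- The second moment of the gauge equals the dimension. -/
lemma gauge_moment :
    Integrable (fun x => gauge P.L x ^ 2 * exp (-(gauge P.L x) ^ 2 / 2)) ∧
      ∫ x, gauge P.L x ^ 2 * exp (-(gauge P.L x) ^ 2 / 2) = ((m : ℝ) + 2) * gaussZ P := by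
  have hg := P.cen.continuous_g
  have h0 : ∀ x, 0 ≤ (gauge P.L x ^ 2 + 2) * exp (-(gauge P.L x) ^ 2 / 2) := fun x => by positivity
  have hc : Continuous fun x => (gauge P.L x ^ 2 + 2) * exp (-(gauge P.L x) ^ 2 / 2) := by fun_prop
  have h := lintegral_gauge P.cen (j := 2) (φ := fun G => (G ^ 2 + 2) * exp (-G ^ 2 / 2))
    (fun G hG => layer_three hG)
  have hi : Integrable fun x => (gauge P.L x ^ 2 + 2) * exp (-(gauge P.L x) ^ 2 / 2) :=
    ⟨hc.aestronglyMeasurable, by
      rw [hasFiniteIntegral_iff_ofReal (Eventually.of_forall h0), h]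
      exact ENNReal.ofReal_lt_top⟩
  have he : ∫ x, (gauge P.L x ^ 2 + 2) * exp (-(gauge P.L x) ^ 2 / 2) =
      (volume P.L).toReal * radI (m + 2 + 2) := by
    rw [integral_eq_lintegral_of_nonneg_ae (Eventually.of_forall h0) hc.aestronglyMeasurable, h,
      ENNReal.toReal_ofReal (mul_nonneg ENNReal.toReal_nonneg (radI_pos _).le)]
  obtain ⟨i1, e1⟩ := integral_gauge P.cen
  have e : (fun x => gauge P.L x ^ 2 * exp (-(gauge P.L x) ^ 2 / 2)) = fun x =>
      (gauge P.L x ^ 2 + 2) * exp (-(gauge P.L x) ^ 2 / 2) - 2 * exp (-(gauge P.L x) ^ 2 / 2) := by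
    funext x; ring
  rw [e]
  refine ⟨hi.sub (i1.const_mul 2), ?_⟩
  rw [integral_sub hi (i1.const_mul 2), integral_const_mul, he, e1, gaussZ_radI, radI_succ]
  push_cast
  ring

lemma prof_bound (k : Fin P.M) : ∃ B, 0 ≤ B ∧ ∀ t, P.prof k t ≤ B := by
  obtain ⟨R, hR⟩ := P.cen.cpt.isBounded.subset_closedBall 0
  refine ⟨max R 0, le_max_right _ _, fun t => ?_⟩
  have hsub : (P.F k).slice P.L t ⊆ Metric.closedBall 0 (max R 0) := by
    intro y hy
    have h := hR hy
    rw [mem_closedBall_zero_iff] at h ⊢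
    have e := (P.F k).norm_sq_S t y
    refine (pow_le_pow_iff_left₀ (norm_nonneg _) (le_max_right _ _) two_ne_zero).1 ?_
    have h2 := pow_le_pow_left₀ (norm_nonneg _) (h.trans (le_max_left R 0)) 2
    linarith [sq_nonneg t]
  have h := ENNReal.toReal_mono measure_closedBall_lt_top.ne (measure_mono (μ := volume) hsub)
  rw [Frame.volume_ball_eq (le_max_right _ _), P.slice_vol] at h
  exact (pow_le_pow_iff_left₀ (P.prof_nonneg k t) (le_max_right _ _) (Nat.succ_ne_zero m)).1
    (le_of_mul_le_mul_left h (ballVol_pos m))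

lemma continuousOn_prof (k : Fin P.M) : ContinuousOn (P.prof k) (Ioo (-1) 1) := by
  have h := (P.prof_concave k).continuousOn_interior
  rwa [interior_Icc] at h

lemma continuousOn_kernel (k : Fin P.M) (y : ℝ) : ContinuousOn
    (fun s => s ^ (m + 2) * exp (-s ^ 2 / 2) * P.prof k (|y| / s) ^ (m + 1)) (Ioi |y|) := by
  refine ((continuousOn_pow (m + 2)).mul (by fun_prop)).mul (ContinuousOn.pow ?_ (m + 1))
  refine (continuousOn_prof P k).comp (continuousOn_const.div continuousOn_id fun s hs => ?_)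
    fun s hs => ?_
  · exact ((abs_nonneg y).trans_lt hs).ne'
  · have h0 : 0 < s := (abs_nonneg y).trans_lt hs
    exact ⟨lt_of_lt_of_le (by norm_num) (div_nonneg (abs_nonneg y) h0.le),
      (div_lt_one h0).2 hs⟩

lemma kernel_bounds (k : Fin P.M) {B : ℝ} (hB : ∀ t, P.prof k t ≤ B) (y : ℝ) {s : ℝ}
    (hs : 0 ≤ s) : 0 ≤ s ^ (m + 2) * exp (-s ^ 2 / 2) * P.prof k (|y| / s) ^ (m + 1) ∧
      s ^ (m + 2) * exp (-s ^ 2 / 2) * P.prof k (|y| / s) ^ (m + 1) ≤
        B ^ (m + 1) * (s ^ (m + 2) * exp (-s ^ 2 / 2)) := by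
  have h1 : 0 ≤ s ^ (m + 2) * exp (-s ^ 2 / 2) := mul_nonneg (pow_nonneg hs _) (exp_pos _).le
  refine ⟨mul_nonneg h1 (pow_nonneg (P.prof_nonneg k _) _), ?_⟩
  rw [mul_comm (B ^ (m + 1))]
  exact mul_le_mul_of_nonneg_left (pow_le_pow_left₀ (P.prof_nonneg k _) (hB _) _) h1

lemma integrable_kernel (k : Fin P.M) (y : ℝ) : IntegrableOn
    (fun s => s ^ (m + 2) * exp (-s ^ 2 / 2) * P.prof k (|y| / s) ^ (m + 1)) (Ioi |y|) := by
  obtain ⟨B, -, hB⟩ := prof_bound P k
  refine Integrable.mono' (((rad_integrable (m + 2)).mono_set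
    (Ioi_subset_Ioi (abs_nonneg y))).const_mul (B ^ (m + 1)))
    ((continuousOn_kernel P k y).aestronglyMeasurable measurableSet_Ioi) ?_
  refine (ae_restrict_iff' measurableSet_Ioi).2 (Eventually.of_forall fun s hs => ?_)
  obtain ⟨h1, h2⟩ := kernel_bounds P k hB y ((abs_nonneg y).trans (le_of_lt hs))
  rwa [Real.norm_eq_abs, abs_of_nonneg h1]

lemma qd_nonneg (k : Fin P.M) (y : ℝ) : 0 ≤ qd P k y := by
  refine mul_nonneg (div_nonneg (ballVol_pos m).le (gaussZ_pos P).le)
    (setIntegral_nonneg measurableSet_Ioi fun s hs => ?_)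
  obtain ⟨B, -, hB⟩ := prof_bound P k
  exact (kernel_bounds P k hB y ((abs_nonneg y).trans (le_of_lt hs))).1

/-- The integral of `exp (-gauge² / 2)` over an affine hyperplane. -/
lemma lintegral_fibre (k : Fin P.M) (t : ℝ) :
    ∫⁻ y, ENNReal.ofReal (exp (-(gauge P.L ((P.F k).S (t, y))) ^ 2 / 2)) =
      ENNReal.ofReal (gaussZ P * qd P k t) := by
  have hS : Measurable fun y => gauge P.L ((P.F k).S (t, y)) :=
    (P.cen.continuous_g.comp ((P.F k).S.continuous.comp (by fun_prop))).measurable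
  rw [← lintegral_congr fun y => layer_one (gauge_nonneg ((P.F k).S (t, y))),
    lintegral_tail hS (fun y => gauge_nonneg _) (by fun_prop)]
  have hlev : ∀ s ∈ Ioi (0 : ℝ), ENNReal.ofReal (s * exp (-s ^ 2 / 2)) *
      volume {y | gauge P.L ((P.F k).S (t, y)) ≤ s} = ENNReal.ofReal (Statement.ballVol (m + 1) *
        (s ^ (m + 2) * exp (-s ^ 2 / 2) * P.prof k (|t| / s) ^ (m + 1))) := by
    intro s hs
    have hs0 : 0 < s := hs
    have e : {y | gauge P.L ((P.F k).S (t, y)) ≤ s} = s • (P.F k).slice P.L (t / s) := by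
      ext y
      have h := Set.ext_iff.1 (gauge_le_set P.cen hs0) ((P.F k).S (t, y))
      rw [mem_setOf_eq, Set.mem_smul_set_iff_inv_smul_mem₀ hs0.ne'] at h
      rw [mem_setOf_eq, h, Set.mem_smul_set_iff_inv_smul_mem₀ hs0.ne', ← map_smul, Prod.smul_mk,
        smul_eq_mul, inv_mul_eq_div]
      rfl
    have habs : P.prof k (|t| / s) = P.prof k (t / s) := by
      rcases abs_choice t with h | h <;> rw [h]
      rw [neg_div, P.prof_even]
    rw [e, Measure.addHaar_smul_of_nonneg _ hs0.le, finrank_euclideanSpace_fin,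
      ← ENNReal.ofReal_toReal ((P.F k).slice_body P.cen.toBody (t / s)).cpt.measure_lt_top.ne,
      P.slice_vol, habs, ← ENNReal.ofReal_mul (by positivity), ← ENNReal.ofReal_mul (by positivity)]
    congr 1
    ring
  rw [setLIntegral_congr_fun measurableSet_Ioi hlev]
  have hcut : ∫⁻ s in Ioi (0 : ℝ), ENNReal.ofReal (Statement.ballVol (m + 1) *
        (s ^ (m + 2) * exp (-s ^ 2 / 2) * P.prof k (|t| / s) ^ (m + 1))) =
      ∫⁻ s in Ioi |t|, ENNReal.ofReal (Statement.ballVol (m + 1) *
        (s ^ (m + 2) * exp (-s ^ 2 / 2) * P.prof k (|t| / s) ^ (m + 1))) := by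
    rw [← lintegral_indicator measurableSet_Ioi, ← lintegral_indicator measurableSet_Ioi]
    refine lintegral_congr_ae ?_
    filter_upwards [compl_mem_ae_iff.2 (measure_singleton |t|)] with s hs
    have hs' : s ≠ |t| := hs
    rcases lt_or_gt_of_ne hs' with h | h
    · rw [indicator_of_notMem (show s ∉ Ioi |t| from not_lt.2 h.le)]
      by_cases h0 : s ∈ Ioi (0 : ℝ)
      · have h0' : 0 < s := h0
        rw [indicator_of_mem h0, P.prof_zero k (fun hm => absurd ((div_le_one h0').1 hm.2)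
          (not_le.2 h)), zero_pow (Nat.succ_ne_zero m), mul_zero, mul_zero, ENNReal.ofReal_zero]
      · rw [indicator_of_notMem h0]
    · rw [indicator_of_mem (show s ∈ Ioi |t| from h),
        indicator_of_mem (show s ∈ Ioi (0 : ℝ) from (abs_nonneg t).trans_lt h)]
  rw [hcut, ← ofReal_integral_eq_lintegral_ofReal ((integrable_kernel P k t).const_mul _) ?_,
    integral_const_mul, qd]
  · congr 1
    field_simp [(gaussZ_pos P).ne']
  · refine (ae_restrict_iff' measurableSet_Ioi).2 (Eventually.of_forall fun s hs => ?_)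
    obtain ⟨B, -, hB⟩ := prof_bound P k
    exact mul_nonneg (ballVol_pos m).le
      (kernel_bounds P k hB t ((abs_nonneg t).trans (le_of_lt hs))).1

lemma continuous_qd (k : Fin P.M) : Continuous (qd P k) := by
  obtain ⟨B, hB0, hB⟩ := prof_bound P k
  let F : ℝ → ℝ → ℝ := fun y => (Ioi |y|).indicator
    fun s => s ^ (m + 2) * exp (-s ^ 2 / 2) * P.prof k (|y| / s) ^ (m + 1)
  have e : qd P k = fun y => Statement.ballVol (m + 1) / gaussZ P * ∫ s, F y s := by
    funext y
    simp only [qd, F]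
    rw [integral_indicator measurableSet_Ioi]
  rw [e]
  refine continuous_const.mul (continuous_iff_continuousAt.2 fun y₀ => ?_)
  refine continuousAt_of_dominated (bound := (Ioi (0 : ℝ)).indicator
      fun s => B ^ (m + 1) * (s ^ (m + 2) * exp (-s ^ 2 / 2)))
    (Eventually.of_forall fun y => (aestronglyMeasurable_indicator_iff measurableSet_Ioi).2
      ((continuousOn_kernel P k y).aestronglyMeasurable measurableSet_Ioi))
    (Eventually.of_forall fun y => Eventually.of_forall fun s => ?_)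
    ((integrable_indicator_iff measurableSet_Ioi).2 ((rad_integrable (m + 2)).const_mul _)) ?_
  · by_cases h : s ∈ Ioi |y|
    · have h0 : 0 < s := (abs_nonneg y).trans_lt h
      obtain ⟨h1, h2⟩ := kernel_bounds P k hB y h0.le
      simp only [F]
      rw [indicator_of_mem h, indicator_of_mem (mem_Ioi.2 h0), Real.norm_eq_abs, abs_of_nonneg h1]
      exact h2
    · simp only [F]
      rw [indicator_of_notMem h, norm_zero]
      exact indicator_nonneg (fun s hs => mul_nonneg (pow_nonneg hB0 _)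
        (mul_nonneg (pow_nonneg (le_of_lt hs) _) (exp_pos _).le)) _
  · filter_upwards [compl_mem_ae_iff.2 (measure_singleton |y₀|)] with s hs
    have hs' : s ≠ |y₀| := hs
    rcases lt_or_gt_of_ne hs' with h | h
    · refine (continuousAt_const (y := (0 : ℝ))).congr ?_
      filter_upwards [continuous_abs.continuousAt.eventually_mem (Ioi_mem_nhds h)] with y hy
      exact (indicator_of_notMem (not_lt.2 (le_of_lt hy)) _).symm
    · have h0 : 0 < s := (abs_nonneg y₀).trans_lt h
      have hmem : |y₀| / s ∈ Ioo (-1 : ℝ) 1 :=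
        ⟨lt_of_lt_of_le (by norm_num) (div_nonneg (abs_nonneg _) h0.le), (div_lt_one h0).2 h⟩
      have hc : ContinuousAt
          (fun y => s ^ (m + 2) * exp (-s ^ 2 / 2) * P.prof k (|y| / s) ^ (m + 1)) y₀ :=
        continuousAt_const.mul ((((continuousOn_prof P k).continuousAt
          (isOpen_Ioo.mem_nhds hmem)).comp_of_eq (continuous_abs.div_const s).continuousAt rfl).pow _)
      refine hc.congr ?_
      filter_upwards [continuous_abs.continuousAt.eventually_mem (Iio_mem_nhds h)] with y hy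
      simp only [F]
      rw [indicator_of_mem (show s ∈ Ioi |y| from hy)]

/-- The law with density proportional to `exp (-gauge² / 2)`. -/
noncomputable def law : Measure (E (m + 2)) :=
  volume.withDensity fun x => ENNReal.ofReal (exp (-(gauge P.L x) ^ 2 / 2) / gaussZ P)

lemma map_law (k : Fin P.M) :
    (law P).map (fun x => ⟪P.u k, x⟫) = volume.withDensity fun t => ENNReal.ofReal (qd P k t) := by
  have hg := P.cen.continuous_g
  have hin : Measurable fun x : E (m + 2) => ⟪P.u k, x⟫ :=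
    (by fun_prop : Continuous fun x : E (m + 2) => ⟪P.u k, x⟫).measurable
  have hw : Measurable fun x => ENNReal.ofReal (exp (-(gauge P.L x) ^ 2 / 2) / gaussZ P) :=
    (by fun_prop : Continuous fun x => exp (-(gauge P.L x) ^ 2 / 2) / gaussZ P).measurable.ennreal_ofReal
  refine Measure.ext fun s hs => ?_
  rw [Measure.map_apply hin hs, law, withDensity_apply _ (hin hs), withDensity_apply _ hs,
    ← lintegral_indicator (hin hs), ← lintegral_indicator hs]
  rw [← (P.F k).mp.lintegral_comp (hw.indicator (hin hs)), Measure.volume_eq_prod]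
  refine (lintegral_prod _ ((hw.indicator (hin hs)).comp
    (P.F k).S.continuous.measurable).aemeasurable).trans (lintegral_congr fun t => ?_)
  have hco : ∀ y, ⟪P.u k, (P.F k).S (t, y)⟫ = t := fun y => by
    rw [real_inner_comm, (P.F k).inner_axis_S]
  by_cases ht : t ∈ s
  · rw [indicator_of_mem ht]
    simp only [Function.comp_apply, indicator_of_mem (show ∀ {y}, (P.F k).S (t, y) ∈
      (fun x => ⟪P.u k, x⟫) ⁻¹' s from fun {y} => by simpa [hco] using ht)]
    have e : ∀ y, ENNReal.ofReal (exp (-(gauge P.L ((P.F k).S (t, y))) ^ 2 / 2) / gaussZ P) =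
        ENNReal.ofReal (exp (-(gauge P.L ((P.F k).S (t, y))) ^ 2 / 2)) *
          ENNReal.ofReal (gaussZ P)⁻¹ := fun y => by
      rw [← ENNReal.ofReal_mul (exp_pos _).le, div_eq_mul_inv]
    rw [lintegral_congr e, lintegral_mul_const' _ _ ENNReal.ofReal_ne_top, lintegral_fibre,
      ← ENNReal.ofReal_mul (mul_nonneg (gaussZ_pos P).le (qd_nonneg P k t))]
    congr 1
    field_simp [(gaussZ_pos P).ne']
  · rw [indicator_of_notMem ht]
    simp only [Function.comp_apply, indicator_of_notMem (show ∀ {y}, (P.F k).S (t, y) ∉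
      (fun x => ⟪P.u k, x⟫) ⁻¹' s from fun {y} => by simpa [hco] using ht), lintegral_zero]

/-- Transfer of functions of one coordinate. -/
lemma transfer (k : Fin P.M) {h : ℝ → ℝ} (hh : Measurable h) :
    (Integrable (fun t => qd P k t * h t) ↔
      Integrable fun x => exp (-(gauge P.L x) ^ 2 / 2) / gaussZ P * h ⟪P.u k, x⟫) ∧
    ∫ t, qd P k t * h t = ∫ x, exp (-(gauge P.L x) ^ 2 / 2) / gaussZ P * h ⟪P.u k, x⟫ := by
  have hg := P.cen.continuous_g
  have hin : Measurable fun x : E (m + 2) => ⟪P.u k, x⟫ :=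
    (by fun_prop : Continuous fun x : E (m + 2) => ⟪P.u k, x⟫).measurable
  have hw : Measurable fun x => ENNReal.ofReal (exp (-(gauge P.L x) ^ 2 / 2) / gaussZ P) :=
    (by fun_prop : Continuous fun x => exp (-(gauge P.L x) ^ 2 / 2) / gaussZ P).measurable.ennreal_ofReal
  have hq : Measurable fun t => ENNReal.ofReal (qd P k t) :=
    (continuous_qd P k).measurable.ennreal_ofReal
  have hfin : ∀ᵐ t ∂(volume : Measure ℝ), ENNReal.ofReal (qd P k t) < ∞ :=
    Eventually.of_forall fun t => ENNReal.ofReal_lt_top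
  have hfin' : ∀ᵐ x ∂(volume : Measure (E (m + 2))),
      ENNReal.ofReal (exp (-(gauge P.L x) ^ 2 / 2) / gaussZ P) < ∞ :=
    Eventually.of_forall fun x => ENNReal.ofReal_lt_top
  have hn : ∀ x, 0 ≤ exp (-(gauge P.L x) ^ 2 / 2) / gaussZ P := fun x =>
    div_nonneg (exp_pos _).le (gaussZ_pos P).le
  constructor
  · have h1 := integrable_map_measure (μ := law P) (f := fun x => ⟪P.u k, x⟫) (g := h)
      hh.aestronglyMeasurable hin.aemeasurable
    rw [map_law, integrable_withDensity_iff_integrable_smul' hq hfin, law,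
      integrable_withDensity_iff_integrable_smul' hw hfin'] at h1
    simpa [ENNReal.toReal_ofReal (qd_nonneg P k _), ENNReal.toReal_ofReal (hn _),
      Function.comp_def] using h1
  · have h1 := integral_map (μ := law P) (φ := fun x => ⟪P.u k, x⟫) (f := h) hin.aemeasurable
      hh.aestronglyMeasurable
    rw [map_law, integral_withDensity_eq_integral_toReal_smul hq hfin, law,
      integral_withDensity_eq_integral_toReal_smul hw hfin'] at h1
    simpa [ENNReal.toReal_ofReal (qd_nonneg P k _), ENNReal.toReal_ofReal (hn _)] using h1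

lemma qd_lower (k : Fin P.M) (y : ℝ) :
    Statement.ballVol (m + 1) / gaussZ P * exp (-(y ^ 2 + 4)) ≤ qd P k y := by
  refine mul_le_mul_of_nonneg_left ?_ (div_nonneg (ballVol_pos m).le (gaussZ_pos P).le)
  obtain ⟨B, -, hB⟩ := prof_bound P k
  set a := |y| with ha
  have ha0 : 0 ≤ a := abs_nonneg y
  have hy2 : a ^ 2 = y ^ 2 := sq_abs y
  have hsub : Icc (a + 1) (a + 2) ⊆ Ioi a := fun s hs => lt_of_lt_of_le (lt_add_one a) hs.1
  have h1 : ∫ _s in Icc (a + 1) (a + 2), exp (-(y ^ 2 + 4)) ≤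
      ∫ s in Icc (a + 1) (a + 2), s ^ (m + 2) * exp (-s ^ 2 / 2) * P.prof k (a / s) ^ (m + 1) := by
    refine setIntegral_mono_on (integrableOn_const (by simp)) ((integrable_kernel P k y).mono_set hsub)
      measurableSet_Icc fun s hs => ?_
    have hs1 : 1 ≤ s := by linarith [hs.1]
    have hmem : a / s ∈ Icc (-1 : ℝ) 1 :=
      ⟨le_trans (by norm_num) (div_nonneg ha0 (by linarith)),
        (div_le_one (by linarith)).2 (by linarith [hs.1])⟩
    have hp : 1 / s ≤ P.prof k (a / s) := by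
      refine le_trans ?_ (P.semi_le_prof k hmem)
      rw [Real.le_sqrt' (by positivity)]
      rw [div_pow, div_pow, one_pow, le_sub_iff_add_le, ← add_div, div_le_one (by positivity)]
      nlinarith [hs.1]
    have h2 : exp (-(y ^ 2 + 4)) ≤ exp (-s ^ 2 / 2) := by
      refine exp_le_exp.2 ?_
      have h3 : s ^ 2 ≤ (a + 2) ^ 2 := pow_le_pow_left₀ (by linarith) hs.2 2
      nlinarith [sq_nonneg (a - 2)]
    calc exp (-(y ^ 2 + 4)) ≤ s * exp (-(y ^ 2 + 4)) := le_mul_of_one_le_left (exp_pos _).le hs1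
      _ ≤ s * exp (-s ^ 2 / 2) := mul_le_mul_of_nonneg_left h2 (by linarith)
      _ = s ^ (m + 2) * exp (-s ^ 2 / 2) * (1 / s) ^ (m + 1) := by
          rw [div_pow, one_pow, pow_succ s (m + 1)]
          field_simp
      _ ≤ _ := by gcongr
  refine le_trans ?_ (setIntegral_mono_set (integrable_kernel P k y) ?_ hsub.eventuallyLE)
  · refine le_trans (le_of_eq ?_) h1
    simp
    norm_num
  · exact (ae_restrict_iff' measurableSet_Ioi).2 (Eventually.of_forall fun s hs =>
      (kernel_bounds P k hB y ((abs_nonneg y).trans (le_of_lt hs))).1)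

lemma qd_pos (k : Fin P.M) (y : ℝ) : 0 < qd P k y :=
  lt_of_lt_of_le (mul_pos (div_pos (ballVol_pos m) (gaussZ_pos P)) (exp_pos _)) (qd_lower P k y)

lemma log_qd_bound (k : Fin P.M) : ∃ C, ∀ y, |log (qd P k y)| ≤ C + y ^ 2 := by
  obtain ⟨B, hB0, hB⟩ := prof_bound P k
  set c := Statement.ballVol (m + 1) / gaussZ P with hc
  have hc0 : 0 < c := div_pos (ballVol_pos m) (gaussZ_pos P)
  set U := c * (B ^ (m + 1) * radI (m + 1)) with hU
  refine ⟨|log c| + |log U| + 4, fun y => ?_⟩
  have hub : qd P k y ≤ U := by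
    refine mul_le_mul_of_nonneg_left ?_ hc0.le
    refine le_trans (setIntegral_mono_on (integrable_kernel P k y) (((rad_integrable (m + 2)).mono_set
      (Ioi_subset_Ioi (abs_nonneg y))).const_mul (B ^ (m + 1))) measurableSet_Ioi fun s hs =>
      (kernel_bounds P k hB y ((abs_nonneg y).trans (le_of_lt hs))).2) ?_
    rw [integral_const_mul]
    refine mul_le_mul_of_nonneg_left ?_ (pow_nonneg hB0 _)
    exact setIntegral_mono_set (rad_integrable (m + 2))
      ((ae_restrict_iff' measurableSet_Ioi).2 (Eventually.of_forall fun s hs =>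
        mul_nonneg (pow_nonneg (le_of_lt hs) _) (exp_pos _).le))
      (Ioi_subset_Ioi (abs_nonneg y)).eventuallyLE
  have h1 := log_le_log (qd_pos P k y) hub
  have h2 := log_le_log (mul_pos hc0 (exp_pos _)) (qd_lower P k y)
  rw [log_mul hc0.ne' (exp_pos _).ne', log_exp] at h2
  rw [abs_le]
  constructor <;> linarith [neg_abs_le (log c), le_abs_self (log U), abs_nonneg (log c),
    abs_nonneg (log U), sq_nonneg y]

lemma integrable_weight_sq (k : Fin P.M) :
    Integrable fun x => exp (-(gauge P.L x) ^ 2 / 2) / gaussZ P * ⟪P.u k, x⟫ ^ 2 := by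
  obtain ⟨R, hR0, hR⟩ := Fisher.exists_norm_le (n := m + 1) P.cen
  have hg := P.cen.continuous_g
  refine (((gauge_moment P).1).const_mul (R ^ 2 / gaussZ P)).mono'
    ((by fun_prop : Continuous fun x =>
      exp (-(gauge P.L x) ^ 2 / 2) / gaussZ P * ⟪P.u k, x⟫ ^ 2).aestronglyMeasurable)
    (Eventually.of_forall fun x => ?_)
  have h1 : |⟪P.u k, x⟫| ≤ R * gauge P.L x := by
    refine (abs_real_inner_le_norm _ _).trans ?_
    rw [(P.F k).norm_axis, one_mul]
    exact hR x
  have h2 := pow_le_pow_left₀ (abs_nonneg _) h1 2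
  rw [sq_abs, mul_pow] at h2
  have hz := gaussZ_pos P
  rw [Real.norm_eq_abs, abs_of_nonneg (by positivity)]
  calc exp (-(gauge P.L x) ^ 2 / 2) / gaussZ P * ⟪P.u k, x⟫ ^ 2
      ≤ exp (-(gauge P.L x) ^ 2 / 2) / gaussZ P * (R ^ 2 * gauge P.L x ^ 2) :=
        mul_le_mul_of_nonneg_left h2 (by positivity)
    _ = R ^ 2 / gaussZ P * (gauge P.L x ^ 2 * exp (-(gauge P.L x) ^ 2 / 2)) := by ring

lemma integrable_weight_log (k : Fin P.M) :
    Integrable fun x => exp (-(gauge P.L x) ^ 2 / 2) / gaussZ P * log (qd P k ⟪P.u k, x⟫) := by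
  obtain ⟨C, hC⟩ := log_qd_bound P k
  have hg := P.cen.continuous_g
  have hz := gaussZ_pos P
  have hm : Measurable fun x => exp (-(gauge P.L x) ^ 2 / 2) / gaussZ P *
      log (qd P k ⟪P.u k, x⟫) :=
    ((by fun_prop : Continuous fun x => exp (-(gauge P.L x) ^ 2 / 2) / gaussZ P).mul
      (((continuous_qd P k).comp (by fun_prop : Continuous fun x : E (m + 2) => ⟪P.u k, x⟫)).log
        fun x => (qd_pos P k _).ne')).measurable
  refine ((((integral_gauge P.cen).1.div_const (gaussZ P)).mul_const C).add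
    (integrable_weight_sq P k)).mono' hm.aestronglyMeasurable (Eventually.of_forall fun x => ?_)
  have hw : 0 ≤ exp (-(gauge P.L x) ^ 2 / 2) / gaussZ P := div_nonneg (exp_pos _).le hz.le
  rw [Real.norm_eq_abs, abs_mul, abs_of_nonneg hw, Pi.add_apply, ← mul_add]
  exact mul_le_mul_of_nonneg_left (hC _) hw

/-- Brascamp–Lieb for the product of the marginals. -/
lemma lintegral_prod_qd (hq1 : ∀ k, ∫ y, qd P k y = 1) (hqi : ∀ k, Integrable (qd P k)) :
    ∫⁻ x, ENNReal.ofReal (∏ k, qd P k ⟪P.u k, x⟫ ^ P.c k) ≤ 1 := by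
  have hmeas : Measurable fun x => ENNReal.ofReal (∏ k, qd P k ⟪P.u k, x⟫ ^ P.c k) :=
    (Finset.measurable_prod _ fun k _ => (((continuous_qd P k).comp
      (by fun_prop : Continuous fun x : E (m + 2) => ⟪P.u k, x⟫)).measurable.pow_const
        _)).ennreal_ofReal
  set A : ℕ → Set (E (m + 2)) := fun R => Asymp.slabs P.u (fun _ => -((R : ℝ) + 1))
    (fun _ => (R : ℝ) + 1) with hA
  have hmono : Monotone A := fun R R' h x hx k =>
    Ioo_subset_Ioo (by simp only [neg_le_neg_iff, add_le_add_iff_right, Nat.cast_le]; exact h)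
      (by simp only [add_le_add_iff_right, Nat.cast_le]; exact h) (hx k)
  have hU : (⋃ R, A R) = univ := eq_univ_of_forall fun x => by
    obtain ⟨R, hR⟩ := exists_nat_gt (‖x‖)
    refine mem_iUnion.2 ⟨R, fun k => abs_lt.1 ?_⟩
    have h := abs_real_inner_le_norm (P.u k) x
    rw [(P.F k).norm_axis, one_mul] at h
    linarith
  rw [← setLIntegral_univ, ← hU, setLIntegral_iUnion_of_directed _ hmono.directed_le]
  refine iSup_le fun R => ?_
  set Zk : Fin P.M → ℝ := fun k => ∫ t in Ioo (-((R : ℝ) + 1)) ((R : ℝ) + 1), qd P k t with hZ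
  have hR1 : -((R : ℝ) + 1) < (R : ℝ) + 1 := by linarith [Nat.cast_nonneg (α := ℝ) R]
  have hZpos : ∀ k, 0 < Zk k := fun k => by
    simp only [hZ]
    rw [← integral_Ioc_eq_integral_Ioo, ← intervalIntegral.integral_of_le hR1.le]
    exact intervalIntegral.intervalIntegral_pos_of_pos_on (hqi k).intervalIntegrable
      (fun t _ => qd_pos P k t) hR1
  have hZle : ∀ k, Zk k ≤ 1 := fun k => by
    rw [← hq1 k]
    exact setIntegral_le_integral (hqi k) (Eventually.of_forall fun t => qd_nonneg P k t)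
  have h := Asymp.brascamp_lieb (fun k => (P.cpos k).le) (u := P.u) (fun k => (P.F k).norm_axis)
    P.ident (a := fun _ => -((R : ℝ) + 1)) (b := fun _ => (R : ℝ) + 1)
    (g := fun k t => qd P k t / Zk k)
    (fun k => ((continuous_qd P k).div_const _).continuousOn)
    (fun k t _ => div_pos (qd_pos P k t) (hZpos k)) (fun k => (hqi k).integrableOn.div_const _)
    (fun k => by rw [integral_div, div_self (hZpos k).ne'])
  refine le_trans (lintegral_mono fun x => ENNReal.ofReal_le_ofReal ?_) h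
  refine Finset.prod_le_prod (fun k _ => rpow_nonneg (qd_nonneg P k _) _) fun k _ => ?_
  refine rpow_le_rpow (qd_nonneg P k _) ?_ (P.cpos k).le
  rw [le_div_iff₀ (hZpos k)]
  exact mul_le_of_le_one_right (qd_nonneg P k _) (hZle k)

end EntropyBL

open EntropyBL

/-- The mass through the volume. -/
theorem gaussZ_eq (P : Position m) :
    gaussZ P = (2 * π) ^ (((m : ℝ) + 2) / 2) * (volume P.L).toReal / Statement.ballVol (m + 2) := by
  have hB : Cen (Metric.closedBall (0 : E (m + 2)) 1) :=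
    ⟨⟨convex_closedBall _ _, isCompact_closedBall _ _⟩,
      by rw [interior_closedBall _ one_ne_zero]; exact Metric.mem_ball_self one_pos⟩
  have h := (integral_gauge hB).2
  simp only [gauge_closedBall zero_le_one, div_one, Frame.volume_ball_eq zero_le_one, one_pow,
    mul_one] at h
  have hg := GaussianFourier.integral_rexp_neg_mul_sq_norm (V := E (m + 2))
    (b := 1 / 2) (by norm_num)
  rw [finrank_euclideanSpace_fin, show π / (1 / 2) = 2 * π by ring] at hg
  have e : (fun x : E (m + 2) => exp (-(1 / 2) * ‖x‖ ^ 2)) = fun x => exp (-‖x‖ ^ 2 / 2) := by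
    funext x; congr 1; ring
  rw [e, h] at hg
  push_cast at hg
  rw [gaussZ_radI, eq_div_iff (ballVol_pos (m + 1)).ne', ← hg]
  ring

theorem qd_one (P : Position m) (k : Fin P.M) :
    Integrable (qd P k) ∧ ∫ y, qd P k y = 1 := by
  have h := transfer P k (h := fun _ => 1) measurable_const
  simp only [mul_one] at h
  refine ⟨h.1.2 ((integral_gauge P.cen).1.div_const _), ?_⟩
  rw [h.2, integral_div, ← gaussZ, div_self (gaussZ_pos P).ne']

theorem qd_log_int (P : Position m) (k : Fin P.M) :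
    Integrable fun y => qd P k y * log (qd P k y) :=
  (transfer P k (h := fun t => log (qd P k t))
    (continuous_qd P k).measurable.log).1.2 (integrable_weight_log P k)

/-- **Entropy Brascamp–Lieb.** -/
theorem entropy_bl (P : Position m) :
    ∑ k, P.c k * ∫ y, qd P k y * log (qd P k y) ≤ -((m : ℝ) + 2) / 2 - log (gaussZ P) := by
  have hz := gaussZ_pos P
  have hg := P.cen.continuous_g
  set φ : E (m + 2) → ℝ := fun x => exp (-(gauge P.L x) ^ 2 / 2) / gaussZ P with hφ
  set Ψ : E (m + 2) → ℝ := fun x => ∏ k, qd P k ⟪P.u k, x⟫ ^ P.c k with hΨ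
  have hφpos : ∀ x, 0 < φ x := fun x => div_pos (exp_pos _) hz
  have hΨpos : ∀ x, 0 < Ψ x := fun x =>
    Finset.prod_pos fun k _ => rpow_pos_of_pos (qd_pos P k _) _
  have hΨm : Measurable Ψ := Finset.measurable_prod _ fun k _ => (((continuous_qd P k).comp
    (by fun_prop : Continuous fun x : E (m + 2) => ⟪P.u k, x⟫)).measurable.pow_const _)
  have hbl := lintegral_prod_qd P (fun k => (qd_one P k).2) (fun k => (qd_one P k).1)
  have hΨi : Integrable Ψ := ⟨hΨm.aestronglyMeasurable, by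
    rw [hasFiniteIntegral_iff_ofReal (Eventually.of_forall fun x => (hΨpos x).le)]
    exact hbl.trans_lt ENNReal.one_lt_top⟩
  have hΨ1 : ∫ x, Ψ x ≤ 1 := by
    rw [integral_eq_lintegral_of_nonneg_ae (Eventually.of_forall fun x => (hΨpos x).le)
      hΨm.aestronglyMeasurable]
    exact ENNReal.toReal_le_of_le_ofReal zero_le_one (by simpa using hbl)
  have hφi : Integrable φ := (integral_gauge P.cen).1.div_const _
  have hφ1 : ∫ x, φ x = 1 := by
    simp only [hφ]
    rw [integral_div, ← gaussZ, div_self hz.ne']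
  have i1 : ∀ k, Integrable fun x => P.c k * (φ x * log (qd P k ⟪P.u k, x⟫)) :=
    fun k => (integrable_weight_log P k).const_mul _
  have i2 : Integrable fun x => gauge P.L x ^ 2 * exp (-(gauge P.L x) ^ 2 / 2) /
      (2 * gaussZ P) := (gauge_moment P).1.div_const _
  have i3 : Integrable fun x => (log (gaussZ P) + 1) * φ x := hφi.const_mul _
  have key : ∀ x, (∑ k, P.c k * (φ x * log (qd P k ⟪P.u k, x⟫))) +
      gauge P.L x ^ 2 * exp (-(gauge P.L x) ^ 2 / 2) / (2 * gaussZ P) +
      (log (gaussZ P) + 1) * φ x ≤ Ψ x := by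
    intro x
    have h := log_le_sub_one_of_pos (div_pos (hΨpos x) (hφpos x))
    rw [log_div (hΨpos x).ne' (hφpos x).ne'] at h
    have h1 : log (Ψ x) = ∑ k, P.c k * log (qd P k ⟪P.u k, x⟫) := by
      rw [hΨ, log_prod (fun k _ => (rpow_pos_of_pos (qd_pos P k _) _).ne')]
      exact Finset.sum_congr rfl fun k _ => log_rpow (qd_pos P k _) _
    have h2 : log (φ x) = -(gauge P.L x) ^ 2 / 2 - log (gaussZ P) := by
      simp only [hφ]
      rw [log_div (exp_pos _).ne' hz.ne', log_exp]
    have h3 := mul_le_mul_of_nonneg_left h (hφpos x).le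
    rw [mul_sub (φ x) (Ψ x / φ x), mul_div_cancel₀ _ (hφpos x).ne', h1, h2, mul_sub,
      Finset.mul_sum] at h3
    have h4 : gauge P.L x ^ 2 * exp (-(gauge P.L x) ^ 2 / 2) / (2 * gaussZ P) =
        φ x * (gauge P.L x ^ 2 / 2) := by simp only [hφ]; field_simp
    rw [h4]
    simp only [mul_left_comm (P.c _)]
    linarith
  have hsum : Integrable fun x => ∑ k, P.c k * (φ x * log (qd P k ⟪P.u k, x⟫)) :=
    integrable_finsetSum _ fun k _ => i1 k
  have h := integral_mono ((hsum.add i2).add i3) hΨi key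
  have i12 : Integrable fun x => (∑ k, P.c k * (φ x * log (qd P k ⟪P.u k, x⟫))) +
      gauge P.L x ^ 2 * exp (-(gauge P.L x) ^ 2 / 2) / (2 * gaussZ P) := hsum.add i2
  simp only [Pi.add_apply] at h
  rw [integral_add i12 i3, integral_add hsum i2,
    integral_finsetSum _ fun k _ => i1 k, integral_const_mul (log (gaussZ P) + 1), hφ1,
    integral_div, (gauge_moment P).2] at h
  simp only [integral_const_mul] at h
  have e : ∀ k, ∫ y, qd P k y * log (qd P k y) = ∫ x, φ x * log (qd P k ⟪P.u k, x⟫) := fun k =>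
    (transfer P k (h := fun t => log (qd P k t)) (continuous_qd P k).measurable.log).2
  simp only [e]
  rw [show ((m : ℝ) + 2) * gaussZ P / (2 * gaussZ P) = ((m : ℝ) + 2) / 2 by
    field_simp] at h
  linarith

end Vale.Agent.P237.Exact
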