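import Vale.Agent.P237.Exact.Position
import Vale.Agent.P237.Uniform.Shape

/-!
# P237: the Fisher number of the contact profiles

`∑ cₖ A(fₖ) ≤ (m+2) V` with `A = (m+1) ∫₀¹ F^m D²/(F - tD) + F(1)^(m+1)`: the summed test with
`φ = -D/(F - tD)` and value one at the end.
-/

open MeasureTheory Set Filter Topology Real intervalIntegral
open scoped RealInnerProductSpace

namespace Vale.Agent.P237.Exact

open Vale.Agent.P237.Uniform

variable {m : ℕ} {F D : ℝ → ℝ}

/-- The Fisher number of a shape. -/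
noncomputable def anum (m : ℕ) (F D : ℝ → ℝ) : ℝ :=
  ((m : ℝ) + 1) * (∫ t in (0 : ℝ)..1, F t ^ m * (D t ^ 2 / (F t - t * D t))) + F 1 ^ (m + 1)

/-- Partial integration in the test functional. -/
lemma test_eq (h : Shape F D) {ph dph : ℝ → ℝ}
    (hph : ∀ t, HasDerivAt ph (dph t) t) (hd : Continuous dph) (hodd : ∀ t, ph (-t) = -ph t) :
    ∫ t in (0 : ℝ)..1, F t ^ (m + 1) * (2 * dph t - ((m : ℝ) + 2) * ph t ^ 2 - 2 * t * ph t * dph t) =
      F 1 ^ (m + 1) * (2 * ph 1 - ph 1 ^ 2) + Uniform.J m F D ph := by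
  have hc : Continuous ph := continuous_iff_continuousAt.2 fun t => (hph t).continuousAt
  have hF := h.cont
  have hU : ∀ t, HasDerivAt (fun t => 2 * ph t - t * ph t ^ 2)
      (2 * dph t - (ph t ^ 2 + 2 * t * ph t * dph t)) t := fun t => by
    refine (((hph t).const_mul 2).sub ((hasDerivAt_id t).mul ((hph t).pow 2))).congr_deriv ?_
    simp; ring
  obtain ⟨i1, i2⟩ := h.intJ (m := m) (φ := ph) hc.continuousOn
  have i3 : IntervalIntegrable
      (fun t => F t ^ (m + 1) * (2 * dph t - (ph t ^ 2 + 2 * t * ph t * dph t))) volume 0 1 :=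
    Shape.intC (by fun_prop)
  have hftc := integral_eq_sub_of_hasDeriv_right_of_le (a := (0 : ℝ)) (b := 1)
    (f := fun t => F t ^ (m + 1) * (2 * ph t - t * ph t ^ 2))
    (f' := fun t => gd m F D t * (2 * ph t - t * ph t ^ 2) +
      F t ^ (m + 1) * (2 * dph t - (ph t ^ 2 + 2 * t * ph t * dph t)))
    zero_le_one (by fun_prop) (fun t ht => by
      refine (((h.deriv t ht).pow (m + 1)).mul (hU t).hasDerivWithinAt).congr_deriv ?_
      simp [gd]) ((i1.neg.congr (fun t _ => by simp)).add i3)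
  have h0 : ph 0 = 0 := by have := hodd 0; simp at this; linarith
  rw [h0] at hftc
  have e : ∫ t in (0 : ℝ)..1,
      F t ^ (m + 1) * (2 * dph t - ((m : ℝ) + 2) * ph t ^ 2 - 2 * t * ph t * dph t) =
      Uniform.J m F D ph + ∫ t in (0 : ℝ)..1, (gd m F D t * (2 * ph t - t * ph t ^ 2) +
        F t ^ (m + 1) * (2 * dph t - (ph t ^ 2 + 2 * t * ph t * dph t))) := by
    rw [Uniform.J, ← intervalIntegral.integral_add (i1.sub i2) ((i1.neg.congr (fun t _ => by simp)).add i3)]
    refine integral_congr fun t _ => ?_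
    ring
  rw [e, hftc]
  simp only [one_mul, mul_zero, sub_zero, ne_eq, OfNat.ofNat_ne_zero, not_false_eq_true, zero_pow]
  ring

/-- Smooth odd approximation of a continuous function vanishing at `0`. -/
lemma exists_odd_approx {ψ : ℝ → ℝ} (hψ : ContinuousOn ψ (Icc 0 1)) (h0 : ψ 0 = 0) {e : ℝ}
    (he : 0 < e) : ∃ ph dph : ℝ → ℝ, (∀ t, HasDerivAt ph (dph t) t) ∧ Continuous dph ∧
      (∀ t, ph (-t) = -ph t) ∧ ∀ t ∈ Icc (0 : ℝ) 1, |ph t - ψ t| ≤ e := by
  set o : ℝ → ℝ := fun t => ψ (min (max t 0) 1) - ψ (min (max (-t) 0) 1) with ho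
  have hm : ∀ t : ℝ, min (max t 0) 1 ∈ Icc (0 : ℝ) 1 := fun t =>
    ⟨le_min (le_max_right _ _) zero_le_one, min_le_right _ _⟩
  have hoc : Continuous o := (hψ.comp_continuous (by fun_prop) hm).sub
    (hψ.comp_continuous (f := fun t : ℝ => min (max (-t) 0) 1) (by fun_prop) fun t => hm (-t))
  have hoψ : ∀ t ∈ Icc (0 : ℝ) 1, o t = ψ t := fun t ht => by
    simp only [ho]
    rw [max_eq_left ht.1, min_eq_left ht.2, max_eq_right (by linarith [ht.1]),
      min_eq_left zero_le_one, h0, sub_zero]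
  obtain ⟨q, hq⟩ := exists_polynomial_near_of_continuousOn (-1) 1 o hoc.continuousOn e he
  set r := Polynomial.C (1 / 2 : ℝ) * (q - q.comp (-Polynomial.X)) with hr
  have hev : ∀ t : ℝ, r.eval t = (q.eval t - q.eval (-t)) / 2 := fun t => by simp [hr]; ring
  refine ⟨fun t => r.eval t, fun t => r.derivative.eval t, r.hasDerivAt, r.derivative.continuous,
    fun t => ?_, fun t ht => ?_⟩
  · simp only [hev, neg_neg]; ring
  · have h1 := hq t ⟨by linarith [ht.1], ht.2⟩
    have h2 := hq (-t) ⟨by linarith [ht.2], by linarith [ht.1]⟩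
    have e' : o (-t) = -o t := by simp [ho]
    rw [e', abs_lt] at h2
    rw [hoψ t ht] at h1 h2
    rw [abs_lt] at h1
    simp only [hev]
    rw [abs_le]
    constructor <;> linarith

/-- Tests converging to the optimal one. -/
lemma exists_tests {f : ℝ → ℝ} (hc : ConcaveOn ℝ (Icc (-1) 1) f) (h : Shape F D)
    (hFf : ∀ t < 1, F t = f t) : ∃ ph dph : ℕ → ℝ → ℝ,
      (∀ j t, HasDerivAt (ph j) (dph j t) t) ∧ (∀ j, Continuous (dph j)) ∧
      (∀ j t, ph j (-t) = -ph j t) ∧
      Tendsto (fun j => F 1 ^ (m + 1) * (2 * ph j 1 - ph j 1 ^ 2) + Uniform.J m F D (ph j)) atTop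
        (𝓝 (anum m F D)) := by
  have hF0 : 0 < F 0 := h.pos 0 ⟨le_rfl, zero_lt_one⟩
  have hF2 : 0 < F (1 / 2) := h.pos _ ⟨by norm_num, by norm_num⟩
  set φ : ℝ → ℝ := fun t => -D t / (F t - t * D t) with hφ
  set B : ℝ := 2 + 4 * F 0 / F (1 / 2) with hB
  have hB0 : 0 ≤ B := by positivity
  have hφB : ∀ t ∈ Ioo (0 : ℝ) 1, 0 ≤ φ t ∧ φ t ≤ B := fun t ht => by
    have hd := h.dnonpos t ht
    have hFt := h.pos t ⟨ht.1.le, ht.2⟩
    have hden : 0 < F t - t * D t := by nlinarith [ht.1]
    refine ⟨div_nonneg (by linarith) hden.le, ?_⟩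
    have h4 : 0 ≤ 4 * F 0 / F (1 / 2) := by positivity
    rcases le_or_gt (1 / 2) t with h2 | h2
    · calc φ t ≤ 2 := by simp only [hφ]; rw [div_le_iff₀ hden]; nlinarith
        _ ≤ B := by linarith
    · have hs := (hasDerivWithinAt_iff_tendsto_slope' (s := Ioi t) (fun h => lt_irrefl t h)).1
        (h.deriv t ht)
      have hlow : -(4 * F 0) ≤ D t := by
        refine ge_of_tendsto hs ?_
        filter_upwards [Ioo_mem_nhdsGT (show t < 3 / 4 by linarith)] with x hx
        have hsl := hc.slope_anti (x := t) ⟨by linarith [ht.1], ht.2.le⟩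
          ⟨⟨by linarith [hx.1, ht.1], by linarith [hx.2]⟩, hx.1.ne'⟩
          ⟨⟨by norm_num, by norm_num⟩, (show (3 / 4 : ℝ) ≠ t by linarith)⟩ hx.2.le
        simp only [slope_def_field] at hsl ⊢
        rw [hFf t ht.2, hFf x (by linarith [hx.2])]
        refine le_trans ?_ hsl
        rw [le_div_iff₀ (by linarith)]
        have h5 : 0 < F (3 / 4) := h.pos _ ⟨by norm_num, by norm_num⟩
        have h6 : F t ≤ F 0 := h.anti ⟨le_rfl, zero_le_one⟩ (Ioo_subset_Icc_self ht) ht.1.le
        rw [hFf _ (by norm_num)] at h5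
        rw [hFf t ht.2] at h6
        nlinarith
      have h7 : F (1 / 2) ≤ F t :=
        h.anti (Ioo_subset_Icc_self ht) ⟨by norm_num, by norm_num⟩ h2.le
      calc φ t ≤ 4 * F 0 / F (1 / 2) := by
            simp only [hφ]
            exact div_le_div₀ (by positivity) (by linarith) hF2 (by nlinarith [ht.1])
        _ ≤ B := by linarith
  set d : ℕ → ℝ := fun j => 1 / ((j : ℝ) + 1) with hd
  have hd0 : ∀ j, 0 < d j := fun j => by positivity
  set s : ℕ → ℝ → ℝ := fun j t => (F (min (t + d j) 1) - F t) / d j with hs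
  set ψ : ℕ → ℝ → ℝ := fun j t =>
    min B (max 0 (-s j t / max (d j) (F t - t * s j t + d j))) * min 1 (t / d j) *
      (1 - t ^ (j + 1)) + t ^ (j + 1) with hψ
  have hsc : ∀ j, ContinuousOn (s j) (Icc 0 1) := fun j =>
    ((h.cont.comp (by fun_prop) fun t ht =>
      ⟨le_min (by linarith [ht.1, hd0 j]) zero_le_one, min_le_right _ _⟩).sub h.cont).div_const _
  have hψc : ∀ j, ContinuousOn (ψ j) (Icc 0 1) := fun j => by
    have hsj := hsc j
    have hmax : ContinuousOn (fun t => max (d j) (F t - t * s j t + d j)) (Icc 0 1) :=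
      (continuous_const.max continuous_id).comp_continuousOn
        ((h.cont.sub (continuousOn_id.mul hsj)).add continuousOn_const)
    have hden : ContinuousOn (fun t => -s j t / max (d j) (F t - t * s j t + d j)) (Icc 0 1) :=
      hsj.neg.div hmax fun t _ => (lt_max_of_lt_left (hd0 j)).ne'
    have hclip : ContinuousOn (fun t => min B (max 0 (-s j t / max (d j) (F t - t * s j t + d j))))
        (Icc 0 1) :=
      (continuous_const.min (continuous_const.max continuous_id)).comp_continuousOn hden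
    refine ((hclip.mul (by fun_prop : ContinuousOn (fun t : ℝ => min 1 (t / d j)) (Icc 0 1))).mul
      (by fun_prop : ContinuousOn (fun t : ℝ => 1 - t ^ (j + 1)) (Icc 0 1))).add (by fun_prop)
  have hψ0 : ∀ j, ψ j 0 = 0 := fun j => by simp [hψ]
  have hψb : ∀ j, ∀ t ∈ Icc (0 : ℝ) 1, |ψ j t| ≤ B + 1 := fun j t ht => by
    have p0 : 0 ≤ t ^ (j + 1) := pow_nonneg ht.1 _
    have p1 : t ^ (j + 1) ≤ 1 := pow_le_one₀ ht.1 ht.2
    have a0 : 0 ≤ min B (max 0 (-s j t / max (d j) (F t - t * s j t + d j))) :=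
      le_min hB0 (le_max_left _ _)
    have a1 := min_le_left B (max 0 (-s j t / max (d j) (F t - t * s j t + d j)))
    have b0 : 0 ≤ min 1 (t / d j) := le_min zero_le_one (div_nonneg ht.1 (hd0 j).le)
    have b1 := min_le_left 1 (t / d j)
    simp only [hψ]
    rw [abs_of_nonneg (add_nonneg (mul_nonneg (mul_nonneg a0 b0) (by linarith)) p0)]
    refine add_le_add ?_ p1
    calc _ ≤ B * 1 * 1 := mul_le_mul (mul_le_mul a1 b1 b0 hB0) (by linarith) (by linarith)
          (by positivity)
      _ = B := by ring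
  have hψl : ∀ t ∈ Ioo (0 : ℝ) 1, Tendsto (fun j => ψ j t) atTop (𝓝 (φ t)) := fun t ht => by
    have hdl : Tendsto d atTop (𝓝 0) := tendsto_one_div_add_atTop_nhds_zero_nat
    have hev : ∀ᶠ j in atTop, d j < min t (1 - t) :=
      hdl.eventually_lt_const (lt_min ht.1 (by linarith [ht.2]))
    have hsl : Tendsto (fun j => s j t) atTop (𝓝 (D t)) := by
      have h1 := ((hasDerivWithinAt_iff_tendsto_slope' (s := Ioi t) (fun h => lt_irrefl t h)).1
        (h.deriv t ht)).comp (tendsto_nhdsWithin_iff.2 ⟨by simpa using hdl.const_add t,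
          Eventually.of_forall fun j => (show t < t + d j by linarith [hd0 j])⟩)
      refine h1.congr' ?_
      filter_upwards [hev] with j hj
      simp only [Function.comp, slope_def_field, hs, add_sub_cancel_left]
      rw [min_eq_left (by linarith [min_le_right t (1 - t)])]
    have hden : 0 < F t - t * D t := by nlinarith [h.pos t ⟨ht.1.le, ht.2⟩, h.dnonpos t ht, ht.1]
    have h2 : Tendsto (fun j => max (d j) (F t - t * s j t + d j)) atTop (𝓝 (F t - t * D t)) := by
      have := hdl.max (((hsl.const_mul t).const_sub (F t)).add hdl)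
      simpa [max_eq_right hden.le] using this
    have h3 := ((tendsto_const_nhds (x := B)).min
      ((tendsto_const_nhds (x := (0 : ℝ))).max (hsl.neg.div h2 hden.ne')))
    rw [max_eq_right (hφB t ht).1, min_eq_right (hφB t ht).2] at h3
    have h4 : Tendsto (fun j => min 1 (t / d j)) atTop (𝓝 1) :=
      tendsto_const_nhds.congr' (by
        filter_upwards [hev] with j hj
        rw [min_eq_left]
        rw [le_div_iff₀ (hd0 j)]
        linarith [min_le_left t (1 - t)])
    have hp : Tendsto (fun j : ℕ => t ^ (j + 1)) atTop (𝓝 0) :=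
      (tendsto_pow_atTop_nhds_zero_of_lt_one ht.1.le ht.2).comp (tendsto_add_atTop_nat 1)
    simpa using ((h3.mul h4).mul (hp.const_sub 1)).add hp
  choose ph dph hph hdph hodd hnear using fun j => exists_odd_approx (hψc j) (hψ0 j) (hd0 j)
  have hdl : Tendsto d atTop (𝓝 0) := tendsto_one_div_add_atTop_nhds_zero_nat
  have hl : ∀ t ∈ Icc (0 : ℝ) 1, ∀ l, Tendsto (fun j => ψ j t) atTop (𝓝 l) →
      Tendsto (fun j => ph j t) atTop (𝓝 l) := fun t ht l hl => by
    have h0 : Tendsto (fun j => ph j t - ψ j t) atTop (𝓝 0) := by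
      refine squeeze_zero_norm (fun j => ?_) hdl
      rw [Real.norm_eq_abs]
      exact hnear j t ht
    simpa using h0.add hl
  refine ⟨ph, dph, hph, hdph, hodd, ?_⟩
  have h1 : Tendsto (fun j => ph j 1) atTop (𝓝 1) := hl 1 ⟨zero_le_one, le_rfl⟩ 1
    (tendsto_const_nhds.congr fun j => by simp [hψ])
  have hJ := J_tendsto (m := m) h (ψ := ph) (φ := φ) (B := B + 2)
    (fun j => (continuous_iff_continuousAt.2 fun t => (hph j t).continuousAt).continuousOn)
    (fun j t ht => by
      have h1 := hψb j t ht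
      have h2 := hnear j t ht
      have h3 : d j ≤ 1 := (div_le_one (by positivity)).2 (by simp)
      have h4 := abs_add_le (ph j t - ψ j t) (ψ j t)
      rw [sub_add_cancel] at h4
      linarith) (fun t ht => hl t (Ioo_subset_Icc_self ht) _ (hψl t ht))
  have hval : Uniform.J m F D φ =
      ((m : ℝ) + 1) * ∫ t in (0 : ℝ)..1, F t ^ m * (D t ^ 2 / (F t - t * D t)) := by
    rw [Uniform.J, ← intervalIntegral.integral_const_mul]
    refine integral_congr_ae ?_
    have hne : ∀ᵐ t : ℝ, t ≠ 1 := by simp [ae_iff]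
    filter_upwards [hne] with t ht htI
    rw [uIoc_of_le zero_le_one] at htI
    have hd' := h.dnonpos t ⟨htI.1, lt_of_le_of_ne htI.2 ht⟩
    have hF' := h.pos t ⟨htI.1.le, lt_of_le_of_ne htI.2 ht⟩
    have hden : F t - t * D t ≠ 0 := by nlinarith [htI.1]
    simp only [gd, hφ]
    obtain ⟨u, hu⟩ : ∃ u, F t = u + t * D t := ⟨F t - t * D t, by ring⟩
    rw [hu, add_sub_cancel_right] at hden
    rw [pow_succ, hu, add_sub_cancel_right]
    field_simp
    ring
  rw [anum, ← hval, add_comm (Uniform.J m F D φ)]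
  refine Tendsto.add ?_ hJ
  have := (((h1.const_mul 2).sub (h1.pow 2)).const_mul (F 1 ^ (m + 1)))
  norm_num at this
  exact this

namespace Position

variable (P : Position m)

/-- The continuous shape of a profile. -/
noncomputable def shape (k : Fin P.M) : ℝ → ℝ :=
  (exists_shape_core (P.prof_concave k) (P.prof_even k) fun _ ht => P.semi_le_prof k ht).choose

/-- Its right derivative. -/
noncomputable def slopeR (k : Fin P.M) : ℝ → ℝ :=
  (exists_shape_core (P.prof_concave k) (P.prof_even k)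
    fun _ ht => P.semi_le_prof k ht).choose_spec.choose

lemma shape_spec (k : Fin P.M) : Shape (P.shape k) (P.slopeR k) ∧
    (∀ t < 1, P.shape k t = P.prof k t) ∧
    ∀ (j : ℕ) (psi : ℝ → ℝ), Continuous psi → (∀ t, psi (-t) = psi t) →
      ∫ t in Icc (-1 : ℝ) 1, P.prof k t ^ j * psi t =
        2 * ∫ t in (0 : ℝ)..1, P.shape k t ^ j * psi t :=
  (exists_shape_core (P.prof_concave k) (P.prof_even k)
    fun _ ht => P.semi_le_prof k ht).choose_spec.choose_spec

lemma mom_shape (k : Fin P.M) (j : ℕ) : P.mom k j = 2 * ∫ t in (0 : ℝ)..1, P.shape k t ^ j := by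
  simpa [mom] using (P.shape_spec k).2.2 j (fun _ => 1) continuous_const fun _ => rfl

/-- **(A)** The Fisher numbers sum to at most `(m + 2) V`. -/
theorem anum_sum (k₀ : Fin P.M) :
    ∑ k, P.c k * anum m (P.shape k) (P.slopeR k) ≤
      ((m : ℝ) + 2) * ∫ t in (0 : ℝ)..1, P.shape k₀ t ^ (m + 1) := by
  choose ph dph hph hdph hodd hlim using fun k =>
    exists_tests (m := m) (P.prof_concave k) (P.shape_spec k).1 (P.shape_spec k).2.1
  refine le_of_tendsto' (tendsto_finsetSum _ fun k _ => (hlim k).const_mul (P.c k)) fun j => ?_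
  have h := P.fisher (fun k => ph k j) (fun k => dph k j) (fun k => hph k j) (fun k => hdph k j) k₀
  rw [P.mom_shape k₀] at h
  have e : ∀ k, ∫ t in Icc (-1 : ℝ) 1, P.prof k t ^ (m + 1) *
      (2 * dph k j t - ((m : ℝ) + 2) * ph k j t ^ 2 - 2 * t * ph k j t * dph k j t) =
      2 * (P.shape k 1 ^ (m + 1) * (2 * ph k j 1 - ph k j 1 ^ 2) +
        Uniform.J m (P.shape k) (P.slopeR k) (ph k j)) := fun k => by
    have hcp : Continuous (ph k j) := continuous_iff_continuousAt.2 fun t => (hph k j t).continuousAt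
    have hcd := hdph k j
    have hdev : ∀ t, dph k j (-t) = dph k j t := fun t => by
      have h1 := (hph k j (-t)).comp t (hasDerivAt_neg t)
      have h2 : HasDerivAt (fun t => ph k j (-t)) (-dph k j t) t :=
        ((hph k j t).neg).congr_of_eventuallyEq (Eventually.of_forall fun x => hodd k j x)
      have := h1.unique h2
      linarith
    rw [(P.shape_spec k).2.2 (m + 1) _ (by fun_prop) (fun t => by simp only [hdev, hodd k j]; ring),
      test_eq (P.shape_spec k).1 (hph k j) hcd (hodd k j)]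
  simp only [e, mul_left_comm (P.c _), ← Finset.mul_sum] at h
  linarith

end Position

end Vale.Agent.P237.Exact
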