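import Vale.Agent.P237.Kappa

/-!
# The Gaussian radial integral
-/

open MeasureTheory Set Real

namespace Vale.Agent.P237.Exact

/-- `k κ_k ∫₀^∞ T^(k-1) exp(-T²/(2l)) dT = (2πl)^(k/2)`. -/
theorem radial_gauss {k : ℕ} (hk : 1 ≤ k) {l : ℝ} (hl : 0 < l) :
    Statement.ballVol k * k * ∫ T in Ioi (0 : ℝ), T ^ (k - 1) * exp (-T ^ 2 / (2 * l)) =
      (2 * π * l) ^ ((k : ℝ) / 2) := by
  obtain ⟨j, rfl⟩ := Nat.exists_eq_add_of_le' hk
  have hb : (0 : ℝ) < 1 / (2 * l) := by positivity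
  have hj : (0 : ℝ) ≤ j := j.cast_nonneg
  have hI : ∫ T in Ioi (0 : ℝ), T ^ (j + 1 - 1) * exp (-T ^ 2 / (2 * l)) =
      (1 / (2 * l)) ^ (-((j : ℝ) + 1) / 2) * (1 / 2) * Gamma (((j : ℝ) + 1) / 2) := by
    rw [← integral_rpow_mul_exp_neg_mul_rpow (p := 2) (q := (j : ℝ)) two_pos (by linarith) hb]
    refine setIntegral_congr_fun measurableSet_Ioi fun T _ => ?_
    simp only [Nat.add_sub_cancel, rpow_natCast, rpow_two]
    ring_nf
  have hG : Gamma (((j + 1 : ℕ) : ℝ) / 2 + 1) =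
      ((j : ℝ) + 1) / 2 * Gamma (((j : ℝ) + 1) / 2) := by
    rw [Gamma_add_one (by positivity)]
    push_cast
    ring
  have hG0 := (Gamma_pos_of_pos (by positivity : (0 : ℝ) < ((j : ℝ) + 1) / 2)).ne'
  have hpi : √π ^ (j + 1) = π ^ (((j : ℝ) + 1) / 2) := by
    rw [sqrt_eq_rpow, ← rpow_natCast, ← rpow_mul pi_pos.le]
    push_cast
    ring_nf
  have hb' : (1 / (2 * l)) ^ (-((j : ℝ) + 1) / 2) = (2 * l) ^ (((j : ℝ) + 1) / 2) := by
    rw [one_div, inv_rpow (by positivity), ← rpow_neg (by positivity)]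
    ring_nf
  rw [ballVol_eq, hG, hI, hb', hpi]
  push_cast
  rw [show 2 * π * l = π * (2 * l) by ring,
    mul_rpow (x := π) pi_pos.le (by positivity : (0 : ℝ) ≤ 2 * l)]
  field_simp

end Vale.Agent.P237.Exact
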