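import Vale.Agent.P237.Exact.ShapeApprox
import Vale.Agent.P237.Exact.FisherA
import Vale.Agent.P237.Exact.EntropyBL
import Vale.Agent.P237.Exact.Radial

/-!
# P237: the perpendicular Fisher numbers of the contact profiles

Geometric Brascamp–Lieb and the inequality at each height give
`∑ cₖ (1 + log (lₖ/ρ²) - lₖ bₖ / V) ≤ 0` for all positive `lₖ`, where `b = ∫₀¹ F^m/(F - tD)`.
-/

open MeasureTheory Set Filter Topology Real
open scoped RealInnerProductSpace

namespace Vale.Agent.P237.Exact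

variable {m : ℕ}

/-- The perpendicular Fisher number of a shape. -/
noncomputable def bnum (m : ℕ) (F D : ℝ → ℝ) : ℝ := ∫ t in (0 : ℝ)..1, F t ^ m / (F t - t * D t)

/-- Fubini on the cone `0 < y < s`. -/
lemma fubini_cone {φ ψ : ℝ → ℝ} (hφ : Measurable φ) {B : ℝ}
    (hB : ∀ t ∈ Ioo (0 : ℝ) 1, |φ t| ≤ B) (hψc : Measurable ψ)
    (hψ : IntegrableOn (fun s => s * |ψ s|) (Ioi (0 : ℝ))) :
    IntegrableOn (fun y => ∫ s in Ioi y, φ (y / s) * ψ s) (Ioi (0 : ℝ)) ∧
      ∫ y in Ioi (0 : ℝ), (∫ s in Ioi y, φ (y / s) * ψ s) =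
        (∫ t in (0 : ℝ)..1, φ t) * ∫ s in Ioi (0 : ℝ), s * ψ s := by
  set g : ℝ × ℝ → ℝ := fun p => (Ioo (0 : ℝ) 1).indicator φ (p.1 / p.2) * ψ p.2 with hg
  have hgm : Measurable g :=
    ((hφ.indicator measurableSet_Ioo).comp (measurable_fst.div measurable_snd)).mul
      (hψc.comp measurable_snd)
  have hgs : ∀ y s, 0 < y → 0 < s →
      g (y, s) = (Ioi y).indicator (fun s => φ (y / s) * ψ s) s := by
    intro y s hy hs
    simp only [hg]
    by_cases h : y < s
    · rw [indicator_of_mem (show y / s ∈ Ioo (0 : ℝ) 1 from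
        ⟨div_pos hy hs, (div_lt_one hs).2 h⟩), indicator_of_mem (show s ∈ Ioi y from h)]
    · rw [indicator_of_notMem fun hh : y / s ∈ Ioo (0 : ℝ) 1 => h ((div_lt_one hs).1 hh.2),
        indicator_of_notMem (show s ∉ Ioi y from h), zero_mul]
  have hgy : ∀ y s, 0 < y → 0 < s →
      g (y, s) = (Ioo (0 : ℝ) s).indicator (fun y => φ (y / s) * ψ s) y := by
    intro y s hy hs
    rw [hgs y s hy hs]
    by_cases h : y < s
    · rw [indicator_of_mem (show s ∈ Ioi y from h), indicator_of_mem (show y ∈ Ioo (0 : ℝ) s from ⟨hy, h⟩)]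
    · rw [indicator_of_notMem (show s ∉ Ioi y from h),
        indicator_of_notMem fun hh : y ∈ Ioo (0 : ℝ) s => h hh.2]
  have hk : ∀ s (C : ℝ), Integrable ((Ioc (0 : ℝ) s).indicator fun _ => C)
      (volume.restrict (Ioi (0 : ℝ))) := fun s C =>
    (integrable_indicator_iff measurableSet_Ioc).2 (integrableOn_const (by
      rw [Measure.restrict_apply measurableSet_Ioc]
      exact ((measure_mono inter_subset_left).trans_lt (by simp [Real.volume_Ioc])).ne))
  have hBs : ∀ s, 0 < s → ∀ᵐ y ∂volume.restrict (Ioi (0 : ℝ)),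
      ‖g (y, s)‖ ≤ (Ioc (0 : ℝ) s).indicator (fun _ => |B| * |ψ s|) y := by
    intro s hs
    filter_upwards [ae_restrict_mem measurableSet_Ioi] with y hy
    rw [hgy y s hy hs]
    by_cases h : y < s
    · rw [indicator_of_mem (show y ∈ Ioo (0 : ℝ) s from ⟨hy, h⟩),
        indicator_of_mem (show y ∈ Ioc (0 : ℝ) s from ⟨hy, h.le⟩), Real.norm_eq_abs, abs_mul]
      exact mul_le_mul_of_nonneg_right
        ((hB _ ⟨div_pos hy hs, (div_lt_one hs).2 h⟩).trans (le_abs_self B)) (abs_nonneg _)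
    · rw [indicator_of_notMem fun hh : y ∈ Ioo (0 : ℝ) s => h hh.2, norm_zero]
      exact indicator_nonneg (fun _ _ => by positivity) _
  have hI : Integrable g ((volume.restrict (Ioi (0 : ℝ))).prod (volume.restrict (Ioi (0 : ℝ)))) := by
    rw [integrable_prod_iff' hgm.aestronglyMeasurable]
    refine ⟨?_, ?_⟩
    · filter_upwards [ae_restrict_mem measurableSet_Ioi] with s hs
      exact (hk s _).mono' (hgm.comp (measurable_id.prodMk measurable_const)).aestronglyMeasurable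
        (hBs s hs)
    · refine (hψ.const_mul |B|).mono'
        (hgm.norm.stronglyMeasurable.integral_prod_left'.aestronglyMeasurable) ?_
      filter_upwards [ae_restrict_mem measurableSet_Ioi] with s hs
      rw [Real.norm_of_nonneg (integral_nonneg fun y => norm_nonneg _)]
      refine (integral_mono_of_nonneg (Eventually.of_forall fun y => norm_nonneg _) (hk s _)
        (hBs s hs)).trans (le_of_eq ?_)
      rw [setIntegral_indicator measurableSet_Ioc, inter_eq_self_of_subset_right Ioc_subset_Ioi_self,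
        setIntegral_const, Real.volume_real_Ioc_of_le (le_of_lt hs), smul_eq_mul]
      ring
  have hinner : ∀ y ∈ Ioi (0 : ℝ),
      (∫ s in Ioi (0 : ℝ), g (y, s)) = ∫ s in Ioi y, φ (y / s) * ψ s := by
    intro y hy
    rw [setIntegral_congr_fun measurableSet_Ioi (fun s hs => hgs y s hy hs),
      setIntegral_indicator measurableSet_Ioi,
      inter_eq_self_of_subset_right (Ioi_subset_Ioi (le_of_lt hy))]
  have hinner' : ∀ᵐ y ∂volume.restrict (Ioi (0 : ℝ)),
      (∫ s in Ioi (0 : ℝ), g (y, s)) = ∫ s in Ioi y, φ (y / s) * ψ s :=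
    ae_restrict_of_forall_mem measurableSet_Ioi hinner
  refine ⟨hI.integral_prod_left.congr hinner', ?_⟩
  rw [← integral_congr_ae hinner', integral_integral_swap (f := fun y s => g (y, s)) hI,
    ← integral_const_mul]
  refine setIntegral_congr_fun measurableSet_Ioi fun s hs => ?_
  have hs0 : (0 : ℝ) < s := hs
  rw [setIntegral_congr_fun measurableSet_Ioi (fun y hy => hgy y s hy hs0),
    setIntegral_indicator measurableSet_Ioo, inter_eq_self_of_subset_right Ioo_subset_Ioi_self,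
    ← integral_Ioc_eq_integral_Ioo, ← intervalIntegral.integral_of_le hs0.le,
    intervalIntegral.integral_mul_const, intervalIntegral.integral_comp_div _ hs0.ne',
    zero_div, div_self hs0.ne', smul_eq_mul]
  ring

/-- Gaussian moments. -/
lemma gauss_moment_succ (j : ℕ) :
    ∫ s in Ioi (0 : ℝ), s ^ (j + 3) * exp (-s ^ 2 / 2) =
      ((j : ℝ) + 2) * ∫ s in Ioi (0 : ℝ), s ^ (j + 1) * exp (-s ^ 2 / 2) :=
  EntropyBL.radI_succ j

namespace Position

variable (P : Position m)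

lemma cshape (k : Fin P.M) : CShape (P.prof k) (P.shape k) (P.slopeR k) :=
  ⟨(P.shape_spec k).1, P.prof_concave k, (P.shape_spec k).2.1⟩

lemma qd_eq (k : Fin P.M) {y : ℝ} (hy : 0 < |y|) :
    qd P k y = Statement.ballVol (m + 1) * ((m : ℝ) + 1) / gaussZ P * qy m (P.shape k) |y| := by
  rw [qd, qy]
  have e : ∀ s ∈ Ioi |y|, s ^ (m + 2) * exp (-s ^ 2 / 2) * P.prof k (|y| / s) ^ (m + 1) =
      rayR (P.shape k) |y| s ^ (m + 1) * (s * exp (-s ^ 2 / 2)) := fun s hs => by
    rw [rayR, (P.shape_spec k).2.1 _ ((div_lt_one (hy.trans hs)).2 hs)]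
    ring
  rw [setIntegral_congr_fun measurableSet_Ioi e]
  field_simp

/-- The entropy of one marginal. -/
lemma entropy_one (hm : 1 ≤ m) (k : Fin P.M) {l : ℝ} (hl : 0 < l) :
    ((m : ℝ) + 1) / 2 * log (2 * π * l) - log (gaussZ P) + ((m : ℝ) + 1) - ((m : ℝ) + 2) / 2 -
        l / 2 * ((m : ℝ) + 1) * (bnum m (P.shape k) (P.slopeR k) /
          ∫ t in (0 : ℝ)..1, P.shape k t ^ (m + 1)) ≤
      ∫ y, qd P k y * log (qd P k y) := by
  have hS := (P.shape_spec k).1
  set F := P.shape k with hF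
  set D := P.slopeR k
  set κ := Statement.ballVol (m + 1) with hκ
  have hκ0 : 0 < κ := ballVol_pos m
  have hZ := EntropyBL.gaussZ_pos P
  set c₀ := κ * ((m : ℝ) + 1) / gaussZ P with hc₀
  have hc0 : 0 < c₀ := by positivity
  have hrad := radial_gauss (k := m + 1) (Nat.succ_pos m) hl
  rw [Nat.add_sub_cancel, ← hκ, ← chiK] at hrad
  push_cast at hrad
  have hK : 0 < chiK m l := by
    have : 0 < κ * ((m : ℝ) + 1) * chiK m l := by rw [hrad]; positivity
    exact pos_of_mul_pos_right this (by positivity)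
  have hF0 : 0 ≤ F 0 := hS.nonneg ⟨le_rfl, zero_le_one⟩
  have hle : ∀ t ∈ Ioo (0 : ℝ) 1, 0 ≤ F t ∧ F t ≤ F 0 := fun t ht =>
    ⟨hS.nonneg (Ioo_subset_Icc_self ht),
      hS.anti ⟨le_rfl, zero_le_one⟩ (Ioo_subset_Icc_self ht) ht.1.le⟩
  set Fc : ℝ → ℝ := fun t => F (min (max t 0) 1) with hFc
  have hFe : ∀ t ∈ Ioo (0 : ℝ) 1, Fc t = F t := fun t ht => by
    simp only [hFc]; rw [max_eq_left ht.1.le, min_eq_left ht.2.le]
  have hFm : Measurable Fc := (hS.cont.comp_continuous (by fun_prop)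
    fun t => ⟨le_min (le_max_right _ _) zero_le_one, min_le_right _ _⟩).measurable
  have hdiv : ∀ y ∈ Ioi (0 : ℝ), ∀ s ∈ Ioi y, y / s ∈ Ioo (0 : ℝ) 1 := fun y hy s hs =>
    ⟨div_pos hy (lt_trans hy hs), (div_lt_one (lt_trans hy hs)).2 hs⟩
  have hpB : ∀ t ∈ Ioo (0 : ℝ) 1, |Fc t ^ (m + 1)| ≤ F 0 ^ (m + 1) := fun t ht => by
    rw [hFe t ht, abs_of_nonneg (pow_nonneg (hle t ht).1 _)]
    exact pow_le_pow_left₀ (hle t ht).1 (hle t ht).2 _
  have hden : ∀ t ∈ Ioo (0 : ℝ) 1, F t ≤ F t - t * D t := fun t ht => by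
    nlinarith [hS.dnonpos t ht, ht.1]
  have hbe : ∀ t ∈ Ioo (0 : ℝ) 1, Fc t ^ m / (Fc t - t * dmeas (P.prof k) t) =
      F t ^ m / (F t - t * D t) := fun t ht => by rw [hFe t ht, (P.cshape k).dmeas_eq ht]
  have hbB : ∀ t ∈ Ioo (0 : ℝ) 1,
      |Fc t ^ m / (Fc t - t * dmeas (P.prof k) t)| ≤ F 0 ^ (m - 1) := fun t ht => by
    have hp := hS.pos t ⟨ht.1.le, ht.2⟩
    rw [hbe t ht, abs_of_nonneg (div_nonneg (pow_nonneg hp.le _) (hp.le.trans (hden t ht)))]
    refine (div_le_div_of_nonneg_left (pow_nonneg hp.le _) hp (hden t ht)).trans ?_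
    obtain ⟨i, rfl⟩ : ∃ i, m = i + 1 := ⟨m - 1, by omega⟩
    rw [Nat.add_sub_cancel, pow_succ, mul_div_assoc, div_self hp.ne', mul_one]
    exact pow_le_pow_left₀ hp.le (hle t ht).2 _
  have hbm : Measurable fun t => Fc t ^ m / (Fc t - t * dmeas (P.prof k) t) :=
    (hFm.pow_const m).div (hFm.sub (measurable_id.mul (measurable_derivWithin_Ioi (P.prof k))))
  have hintc : ∀ φ φ' : ℝ → ℝ, (∀ t ∈ Ioo (0 : ℝ) 1, φ t = φ' t) →
      ∫ t in (0 : ℝ)..1, φ t = ∫ t in (0 : ℝ)..1, φ' t := fun φ φ' hh => by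
    rw [intervalIntegral.integral_of_le zero_le_one, intervalIntegral.integral_of_le zero_le_one,
      integral_Ioc_eq_integral_Ioo, integral_Ioc_eq_integral_Ioo]
    exact setIntegral_congr_fun measurableSet_Ioo hh
  have hV' : ∫ t in (0 : ℝ)..1, Fc t ^ (m + 1) = ∫ t in (0 : ℝ)..1, F t ^ (m + 1) :=
    hintc _ _ fun t ht => by rw [hFe t ht]
  have hrad' : ∀ j, IntegrableOn (fun s : ℝ => s ^ j * exp (-s ^ 2 / 2)) (Ioi 0) :=
    EntropyBL.rad_integrable
  set M := ∫ s in Ioi (0 : ℝ), s ^ (m + 3) * exp (-s ^ 2 / 2) with hM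
  have hM0 : 0 < M := EntropyBL.radI_pos (m + 2)
  set V := ∫ t in (0 : ℝ)..1, F t ^ (m + 1) with hV
  obtain ⟨iq, eq'⟩ := fubini_cone (φ := fun t => Fc t ^ (m + 1))
    (ψ := fun s => s ^ (m + 2) * exp (-s ^ 2 / 2)) (hFm.pow_const _) hpB (by fun_prop)
    ((hrad' (m + 3)).congr_fun (fun s hs => by
      rw [abs_of_nonneg (by have : (0:ℝ) ≤ s := le_of_lt hs; positivity)]; ring) measurableSet_Ioi)
  obtain ⟨ie, ee⟩ := fubini_cone (φ := fun t => Fc t ^ (m + 1))
    (ψ := fun s => s ^ (m + 1) * ((s ^ 3 - 2 * s) * exp (-s ^ 2 / 2))) (hFm.pow_const _) hpB (by fun_prop) (by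
      refine Integrable.mono' ((hrad' (m + 5)).add ((hrad' (m + 3)).const_mul 2))
        (Continuous.aestronglyMeasurable (by fun_prop)) ?_
      filter_upwards [ae_restrict_mem measurableSet_Ioi] with s hs
      have hs0 : (0 : ℝ) < s := hs
      rw [Real.norm_of_nonneg (by positivity), abs_mul, abs_mul, abs_of_pos (exp_pos _),
        abs_of_pos (pow_pos hs0 _)]
      have h1 : |s ^ 3 - 2 * s| ≤ s ^ 3 + 2 * s := by
        rw [abs_le]; constructor <;> nlinarith [pow_pos hs0 3]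
      calc s * (s ^ (m + 1) * (|s ^ 3 - 2 * s| * exp (-s ^ 2 / 2)))
          ≤ s * (s ^ (m + 1) * ((s ^ 3 + 2 * s) * exp (-s ^ 2 / 2))) := by gcongr
        _ = _ := by simp only [Pi.add_apply]; ring)
  obtain ⟨ib, eb⟩ := fubini_cone (φ := fun t => Fc t ^ m / (Fc t - t * dmeas (P.prof k) t))
    (ψ := fun s => s ^ (m + 2) * exp (-s ^ 2 / 2)) hbm hbB (by fun_prop)
    ((hrad' (m + 3)).congr_fun (fun s hs => by
      rw [abs_of_nonneg (by have : (0:ℝ) ≤ s := le_of_lt hs; positivity)]; ring) measurableSet_Ioi)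
  have cq : ∀ y ∈ Ioi (0 : ℝ), qy m F y = 1 / ((m : ℝ) + 1) *
      ∫ s in Ioi y, Fc (y / s) ^ (m + 1) * (s ^ (m + 2) * exp (-s ^ 2 / 2)) := fun y hy => by
    rw [qy]; congr 1
    refine setIntegral_congr_fun measurableSet_Ioi fun s hs => ?_
    rw [hFe _ (hdiv y hy s hs), rayR]; ring
  have ce : ∀ y ∈ Ioi (0 : ℝ), ey m F y = 1 / ((m : ℝ) + 1) *
      ∫ s in Ioi y, Fc (y / s) ^ (m + 1) * (s ^ (m + 1) * ((s ^ 3 - 2 * s) * exp (-s ^ 2 / 2))) :=
    fun y hy => by
      rw [ey]; congr 1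
      refine setIntegral_congr_fun measurableSet_Ioi fun s hs => ?_
      rw [hFe _ (hdiv y hy s hs), rayR]; ring
  have cb : ∀ y ∈ Ioi (0 : ℝ), byv m F D y = ∫ s in Ioi y,
      Fc (y / s) ^ m / (Fc (y / s) - y / s * dmeas (P.prof k) (y / s)) *
        (s ^ (m + 2) * exp (-s ^ 2 / 2)) :=
    fun y hy => by
      rw [byv]
      refine setIntegral_congr_fun measurableSet_Ioi fun s hs => ?_
      rw [hbe _ (hdiv y hy s hs), rayR, rayU]; ring
  have iq' : IntegrableOn (fun y => qy m F y) (Ioi 0) :=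
    IntegrableOn.congr_fun (Integrable.const_mul iq _) (fun y hy => (cq y hy).symm) measurableSet_Ioi
  have ie' : IntegrableOn (fun y => ey m F y) (Ioi 0) :=
    IntegrableOn.congr_fun (Integrable.const_mul ie _) (fun y hy => (ce y hy).symm) measurableSet_Ioi
  have ib' : IntegrableOn (fun y => byv m F D y) (Ioi 0) :=
    ib.congr_fun (fun y hy => (cb y hy).symm) measurableSet_Ioi
  have m1 : ∫ s in Ioi (0 : ℝ), s * (s ^ (m + 2) * exp (-s ^ 2 / 2)) = M :=
    setIntegral_congr_fun measurableSet_Ioi fun s _ => by ring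
  have Iq : ∫ y in Ioi (0 : ℝ), qy m F y = V * M / ((m : ℝ) + 1) := by
    rw [setIntegral_congr_fun measurableSet_Ioi cq, integral_const_mul, eq', m1, hV']; ring
  have Ib : ∫ y in Ioi (0 : ℝ), byv m F D y = bnum m F D * M := by
    rw [setIntegral_congr_fun measurableSet_Ioi cb, eb, m1, bnum, hintc _ _ hbe]
  have Ie : ∫ y in Ioi (0 : ℝ), ey m F y = ((m : ℝ) + 2) * (V * M / ((m : ℝ) + 1)) := by
    have m2 : ∫ s in Ioi (0 : ℝ), s * (s ^ (m + 1) * ((s ^ 3 - 2 * s) * exp (-s ^ 2 / 2))) =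
        ((m : ℝ) + 2) * M := by
      have h := gauss_moment_succ (m + 2)
      rw [setIntegral_congr_fun measurableSet_Ioi (g := fun s =>
        s ^ (m + 5) * exp (-s ^ 2 / 2) - 2 * (s ^ (m + 3) * exp (-s ^ 2 / 2))) (fun s _ => by ring),
        integral_sub (hrad' _) ((hrad' _).const_mul 2), integral_const_mul, h, ← hM]
      push_cast; ring
    rw [setIntegral_congr_fun measurableSet_Ioi ce, integral_const_mul, ee, m2, hV']; ring
  -- the two halves
  have qpos : ∀ y ∈ Ioi (0 : ℝ), qd P k y = c₀ * qy m F y := fun y hy => by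
    rw [P.qd_eq k (by rw [abs_of_pos (show (0:ℝ) < y from hy)]; exact hy), abs_of_pos (show (0:ℝ) < y from hy)]
  have even_int : ∀ g : ℝ → ℝ, Integrable g → (∀ y, g (-y) = g y) →
      ∫ y, g y = 2 * ∫ y in Ioi (0 : ℝ), g y := fun g _ he => by
    have : ∀ y, g y = g |y| := fun y => by
      rcases abs_choice y with h | h <;> rw [h]; rw [he]
    rw [integral_congr_ae (Eventually.of_forall this), integral_comp_abs]
  have qev : ∀ y, qd P k (-y) = qd P k y := fun y => by simp only [qd, abs_neg]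
  have hmass : 2 * c₀ * (V * M / ((m : ℝ) + 1)) = 1 := by
    have h := (qd_one P k).2
    rw [even_int _ (qd_one P k).1 qev, setIntegral_congr_fun measurableSet_Ioi qpos,
      integral_const_mul, Iq] at h
    linarith
  set a := log c₀ + log (chiK m l) + ((m : ℝ) + 1) with ha
  have key : ∀ y ∈ Ioi (0 : ℝ), c₀ * (a * qy m F y) - c₀ / 2 * ey m F y -
      c₀ * (l / 2) * byv m F D y ≤ qd P k y * log (qd P k y) := fun y hy => by
    have h := mul_le_mul_of_nonneg_left ((P.cshape k).per_y hm hy hl hK) hc0.le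
    have hq := EntropyBL.qd_pos P k y
    rw [qpos y hy] at hq ⊢
    rw [log_mul hc0.ne' (pos_of_mul_pos_right hq hc0.le).ne', ha]
    linarith
  have iL : IntegrableOn (fun y => qd P k y * log (qd P k y)) (Ioi 0) :=
    (qd_log_int P k).integrableOn
  have i1 : IntegrableOn (fun y => c₀ * (a * qy m F y) - c₀ / 2 * ey m F y) (Ioi 0) :=
    ((iq'.const_mul a).const_mul c₀).sub (ie'.const_mul _)
  have hint := setIntegral_mono_on (i1.sub (ib'.const_mul (c₀ * (l / 2)))) iL measurableSet_Ioi key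
  simp only [Pi.sub_apply] at hint
  rw [integral_sub i1 (ib'.const_mul _), integral_sub ((iq'.const_mul a).const_mul c₀)
    (ie'.const_mul _), integral_const_mul, integral_const_mul, integral_const_mul, integral_const_mul,
    Iq, Ie, Ib] at hint
  rw [even_int _ (qd_log_int P k) fun y => by rw [qev]]
  have hV0 : 0 < V := by
    by_contra hc
    have : 2 * c₀ * (V * M / ((m : ℝ) + 1)) ≤ 0 := by
      refine mul_nonpos_of_nonneg_of_nonpos (by positivity) (div_nonpos_of_nonpos_of_nonneg ?_ (by positivity))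
      exact mul_nonpos_of_nonpos_of_nonneg (not_lt.1 hc) hM0.le
    linarith
  have hb' : bnum m F D * M * c₀ * 2 = ((m : ℝ) + 1) * (bnum m F D / V) := by
    have : c₀ * M * 2 = ((m : ℝ) + 1) / V := by
      field_simp at hmass ⊢
      linarith
    calc bnum m F D * M * c₀ * 2 = bnum m F D * (c₀ * M * 2) := by ring
      _ = _ := by rw [this]; ring
  have ha' : a = ((m : ℝ) + 1) / 2 * log (2 * π * l) - log (gaussZ P) + ((m : ℝ) + 1) := by
    rw [ha, ← log_mul hc0.ne' hK.ne', hc₀, div_mul_eq_mul_div, hrad,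
      log_div (by positivity) hZ.ne', log_rpow (by positivity)]
  rw [ha'] at hint
  have h2 := mul_le_mul_of_nonneg_left hint (zero_le_two (α := ℝ))
  linear_combination h2 + (-(((m : ℝ) + 1) / 2 * log (2 * π * l) - log (gaussZ P) + ((m : ℝ) + 1)) +
    ((m : ℝ) + 2) / 2) * hmass + l / 2 * hb'

/-- **(B)**, general weights. -/
theorem bnum_general (hm : 1 ≤ m) {ρ : ℝ} (hρ : 0 < ρ)
    (hvol : Statement.ballVol (m + 2) * ρ ^ (m + 2) = (volume P.L).toReal)
    (l : Fin P.M → ℝ) (hl : ∀ k, 0 < l k) :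
    ∑ k, P.c k * (1 + log (l k / ρ ^ 2) - l k * (bnum m (P.shape k) (P.slopeR k) /
        ∫ t in (0 : ℝ)..1, P.shape k t ^ (m + 1))) ≤ 0 := by
  set b : Fin P.M → ℝ := fun k =>
    bnum m (P.shape k) (P.slopeR k) / ∫ t in (0 : ℝ)..1, P.shape k t ^ (m + 1) with hb
  have hκ : 0 < Statement.ballVol (m + 2) := ballVol_pos (m + 1)
  have hlogZ : log (gaussZ P) = ((m : ℝ) + 2) / 2 * log (2 * π) + ((m : ℝ) + 2) * log ρ := by
    rw [gaussZ_eq, ← hvol, mul_div_assoc, mul_div_cancel_left₀ _ hκ.ne',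
      log_mul (by positivity) (by positivity), log_rpow (by positivity), log_pow]
    push_cast; ring
  have h := (Finset.sum_le_sum fun k _ =>
    mul_le_mul_of_nonneg_left (P.entropy_one hm k (hl k)) (P.cpos k).le).trans (entropy_bl P)
  have e : ∀ k, P.c k * (((m : ℝ) + 1) / 2 * log (2 * π * l k) - log (gaussZ P) + ((m : ℝ) + 1) -
      ((m : ℝ) + 2) / 2 - l k / 2 * ((m : ℝ) + 1) * b k) =
      ((m : ℝ) + 1) / 2 * (P.c k * (1 + log (l k / ρ ^ 2) - l k * b k)) +
        P.c k * ((((m : ℝ) + 1) / 2 * log (2 * π) + ((m : ℝ) + 1) * log ρ - log (gaussZ P)) +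
          ((m : ℝ) + 1) / 2 - ((m : ℝ) + 2) / 2) := fun k => by
    rw [log_mul (by positivity) (hl k).ne', log_div (hl k).ne' (by positivity), log_pow]
    push_cast; ring
  rw [Finset.sum_congr rfl fun k _ => e k, Finset.sum_add_distrib, ← Finset.mul_sum, ← Finset.sum_mul,
    P.csum, hlogZ] at h
  refine le_of_mul_le_mul_left (a := ((m : ℝ) + 1) / 2) ?_ (by positivity)
  rw [mul_zero]
  linarith

/-- **(B)**, linear form: `∑ cₖ (ρ² bₖ - V) ≥ 0`. -/
theorem bnum_sum (hm : 1 ≤ m) {ρ : ℝ} (hρ : 0 < ρ)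
    (hvol : Statement.ballVol (m + 2) * ρ ^ (m + 2) = (volume P.L).toReal) (k₀ : Fin P.M) :
    0 ≤ ∑ k, P.c k * (ρ ^ 2 * bnum m (P.shape k) (P.slopeR k) -
        ∫ t in (0 : ℝ)..1, P.shape k₀ t ^ (m + 1)) := by
  have hV : ∀ k, ∫ t in (0 : ℝ)..1, P.shape k t ^ (m + 1) =
      ∫ t in (0 : ℝ)..1, P.shape k₀ t ^ (m + 1) := fun k => by
    have h1 := P.volume_eq k
    rw [P.volume_eq k₀, P.mom_shape, P.mom_shape] at h1
    have := mul_left_cancel₀ (ballVol_pos m).ne' h1
    linarith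
  have hV0 : 0 < ∫ t in (0 : ℝ)..1, P.shape k₀ t ^ (m + 1) := by
    have := P.mom_pos k₀
    rw [P.mom_shape] at this
    linarith
  have h := P.bnum_general hm hρ hvol (fun _ => ρ ^ 2) fun _ => by positivity
  simp only [div_self (pow_ne_zero 2 hρ.ne'), Real.log_one, add_zero, hV] at h
  have e : ∀ k, P.c k * (ρ ^ 2 * bnum m (P.shape k) (P.slopeR k) -
      ∫ t in (0 : ℝ)..1, P.shape k₀ t ^ (m + 1)) = -(∫ t in (0 : ℝ)..1, P.shape k₀ t ^ (m + 1)) *
      (P.c k * (1 - ρ ^ 2 * (bnum m (P.shape k) (P.slopeR k) /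
        ∫ t in (0 : ℝ)..1, P.shape k₀ t ^ (m + 1)))) := fun k => by field_simp; ring
  rw [Finset.sum_congr rfl fun k _ => e k, ← Finset.mul_sum]
  exact mul_nonneg_of_nonpos_of_nonpos (by linarith) h

end Position

end Vale.Agent.P237.Exact
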