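import Vale.Agent.P237.Exact.Entropy
import Vale.Agent.P237.Exact.Assembly

/-!
# P237: exact step from the one-profile Fisher inequality

The two summed bounds `∑ cₖ A(fₖ) ≤ (m+2) V` and `∑ cₖ (ρ² b(fₖ) - V) ≥ 0` reduce the exact
inequality in dimension `m + 2` to one inequality for a single profile, with any weight `w ≥ 0`.
The one-profile inequality is a hypothesis here; it is not proved.
-/

open MeasureTheory Set Real
open scoped RealInnerProductSpace

namespace Vale.Agent.P237.Exact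

open Full

variable {m : ℕ}

/-- The one-profile inequality with weight `w`, equality only at the semicircle. -/
def ProfileFisher (m : ℕ) (w : ℝ) : Prop :=
  ∀ (f F D : ℝ → ℝ) (ρ : ℝ), CShape f F D → (∀ t, f (-t) = f t) →
    (∀ t ∈ Icc (-1 : ℝ) 1, √(1 - t ^ 2) ≤ f t) → 0 < ρ →
    Statement.ballVol (m + 2) * ρ ^ (m + 2) =
      2 * Statement.ballVol (m + 1) * ∫ t in (0 : ℝ)..1, F t ^ (m + 1) →
    2 * Statement.ballVol (m + 1) * (∫ t in (0 : ℝ)..1, F t ^ (m + 1)) ≤
      profileConst m ^ (m + 2) →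
    (2 * ∫ t in (0 : ℝ)..1, F t ^ m) ^ (m + 1) ≤
      profileConst m * (2 * ∫ t in (0 : ℝ)..1, F t ^ (m + 1)) ^ m →
    w * ((m : ℝ) + 1) * (ρ ^ 2 * bnum m F D - ∫ t in (0 : ℝ)..1, F t ^ (m + 1)) +
        (∫ t in (0 : ℝ)..1, F t ^ (m + 1)) - anum m F D ≤ 0 ∧
      (w * ((m : ℝ) + 1) * (ρ ^ 2 * bnum m F D - ∫ t in (0 : ℝ)..1, F t ^ (m + 1)) +
          (∫ t in (0 : ℝ)..1, F t ^ (m + 1)) - anum m F D = 0 →
        ∀ t ∈ Ioo (-1 : ℝ) 1, f t ≤ √(1 - t ^ 2))

/-- The one-profile inequality implies the step. -/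
theorem stepProp_of_profileFisher (hm : 1 ≤ m) {w : ℝ} (hw : 0 ≤ w) (h : ProfileFisher m w) :
    StepProp m := by
  refine stepProp_of_small hm fun P hsmall hP => ?_
  obtain ⟨k₀⟩ := P.exists_index
  have hκ : 0 < Statement.ballVol (m + 2) := ballVol_pos (m + 1)
  obtain ⟨ρ, hρ, hρv⟩ := exists_root (n := m + 2) (by omega)
    (V := (volume P.L).toReal / Statement.ballVol (m + 2)) (div_nonneg P.volume_pos.le hκ.le)
  have hρv' : Statement.ballVol (m + 2) * ρ ^ (m + 2) = (volume P.L).toReal := by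
    rw [hρv, mul_div_cancel₀ _ hκ.ne']
  have hρ0 : 0 < ρ := by
    rcases hρ.eq_or_lt with h0 | h0
    · rw [← h0, zero_pow (by omega : m + 2 ≠ 0), mul_zero] at hρv'
      exact absurd hρv'.symm P.volume_pos.ne'
    · exact h0
  set V := ∫ t in (0 : ℝ)..1, P.shape k₀ t ^ (m + 1) with hV
  have hmom : ∀ k, ∫ t in (0 : ℝ)..1, P.shape k t ^ (m + 1) = V := fun k => by
    have h1 := P.volume_eq k
    rw [P.volume_eq k₀, P.mom_shape, P.mom_shape] at h1
    have := mul_left_cancel₀ (ballVol_pos m).ne' h1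
    rw [hV]; linarith
  have hvol : (volume P.L).toReal = 2 * Statement.ballVol (m + 1) * V := by
    rw [P.volume_eq k₀, P.mom_shape, hV]; ring
  have key : ∀ k, _ := fun k => h (P.prof k) (P.shape k) (P.slopeR k) ρ (P.cshape k)
    (P.prof_even k) (fun t ht => P.semi_le_prof k ht) hρ0
    (by rw [hmom k, hρv', hvol]) (by rw [hmom k, ← hvol]; exact hsmall)
    (by rw [← P.mom_shape, ← P.mom_shape]; exact hP k)
  simp only [hmom] at key
  have hA : ∑ k, P.c k * anum m (P.shape k) (P.slopeR k) ≤ ((m : ℝ) + 2) * V := P.anum_sum k₀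
  have hB : 0 ≤ ∑ k, P.c k * (ρ ^ 2 * bnum m (P.shape k) (P.slopeR k) - V) :=
    P.bnum_sum hm hρ0 hρv' k₀
  set g : Fin P.M → ℝ := fun k => P.c k *
    (w * ((m : ℝ) + 1) * (ρ ^ 2 * bnum m (P.shape k) (P.slopeR k) - V) + V -
      anum m (P.shape k) (P.slopeR k)) with hg
  have hsum : ∑ k, g k = w * ((m : ℝ) + 1) *
      (∑ k, P.c k * (ρ ^ 2 * bnum m (P.shape k) (P.slopeR k) - V)) + ((m : ℝ) + 2) * V -
      ∑ k, P.c k * anum m (P.shape k) (P.slopeR k) := by
    rw [Finset.mul_sum, ← P.csum, Finset.sum_mul, ← Finset.sum_add_distrib,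
      ← Finset.sum_sub_distrib]
    exact Finset.sum_congr rfl fun k _ => by simp only [hg]; ring
  have hle : ∀ k, g k ≤ 0 := fun k => mul_nonpos_of_nonneg_of_nonpos (P.cpos k).le (key k).1
  have h0 : 0 ≤ ∑ k, g k := by
    rw [hsum]
    have : 0 ≤ w * ((m : ℝ) + 1) * ∑ k, P.c k * (ρ ^ 2 * bnum m (P.shape k) (P.slopeR k) - V) :=
      mul_nonneg (by positivity) hB
    linarith
  have hz : g k₀ = 0 := (Finset.sum_eq_zero_iff_of_nonpos fun k _ => hle k).1
    (le_antisymm (Finset.sum_nonpos fun k _ => hle k) h0) k₀ (Finset.mem_univ k₀)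
  exact ⟨k₀, (key k₀).2 ((mul_eq_zero.1 hz).resolve_left (P.cpos k₀).ne')⟩

/-- Exact Petty with the equality case from the one-profile inequality in every dimension up to
`n`. -/
theorem petty_exact_of_profileFisher (j : ℕ) (w : ℕ → ℝ)
    (h : ∀ m, 2 ≤ m → m ≤ j + 1 → 0 ≤ w m ∧ ProfileFisher m (w m))
    (K : Set (Statement.Space (j + 3))) (hK : Statement.IsConvexBody K) :
    Statement.pettyConst (j + 3) * Statement.vol K ^ (j + 2) ≤
        Statement.vol (Statement.projectionBody K) ∧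
      (Statement.vol (Statement.projectionBody K) =
          Statement.pettyConst (j + 3) * Statement.vol K ^ (j + 2) ↔
        ∃ (a : Statement.Space (j + 3)) (T : Statement.Space (j + 3) →ₗ[ℝ] Statement.Space (j + 3)),
          Function.Injective T ∧ K = (fun x => a + T x) '' Metric.closedBall 0 1) :=
  petty_exact_upto j (fun m h1 h2 =>
    stepProp_of_profileFisher (by omega) (h m h1 h2).1 (h m h1 h2).2) K hK

end Vale.Agent.P237.Exact
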