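import Vale.Agent.P237.Exact.Assembly

/-!
# P237: the conditional Gaussian inequality at one height

Along the ray parameter `s > y` the slice radius is `R = s F(y/s)`. Monotone transport of
`R^(k-1) R' exp (-s²/2)` to the radial Gaussian of variance `λ`, partial integration and
`2ab ≤ a² + b²` bound the entropy from below by `∫ R^(k-1) s²/R' exp (-s²/2)`. Here `k = m + 1`.
-/

open MeasureTheory Set Filter Topology Real intervalIntegral

namespace Vale.Agent.P237.Exact

/-- A shape that vanishes at `1`, differentiable off a countable set. -/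
structure Reg (F D : ℝ → ℝ) : Prop where
  cont : ContinuousOn F (Icc 0 1)
  anti : AntitoneOn F (Icc 0 1)
  pos : ∀ t ∈ Ico (0 : ℝ) 1, 0 < F t
  zero : F 1 = 0
  dnonpos : ∀ t ∈ Ioo (0 : ℝ) 1, D t ≤ 0
  meas : Measurable D
  bdd : ∀ b < 1, ∃ B, ∀ t ∈ Ioc (0 : ℝ) b, |D t| ≤ B
  deriv : ∃ S : Set ℝ, S.Countable ∧ ∀ t ∈ Ioo (0 : ℝ) 1, t ∉ S → HasDerivAt F (D t) t

/-- The slice radius on the ray. -/
noncomputable def rayR (F : ℝ → ℝ) (y s : ℝ) : ℝ := s * F (y / s)

/-- Its derivative. -/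
noncomputable def rayU (F D : ℝ → ℝ) (y s : ℝ) : ℝ := F (y / s) - y / s * D (y / s)

/-- The marginal density at height `y`, without constants. -/
noncomputable def qy (m : ℕ) (F : ℝ → ℝ) (y : ℝ) : ℝ :=
  1 / ((m : ℝ) + 1) * ∫ s in Ioi y, rayR F y s ^ (m + 1) * (s * exp (-s ^ 2 / 2))

/-- The second radial moment at height `y`. -/
noncomputable def ey (m : ℕ) (F : ℝ → ℝ) (y : ℝ) : ℝ :=
  1 / ((m : ℝ) + 1) * ∫ s in Ioi y, rayR F y s ^ (m + 1) * ((s ^ 3 - 2 * s) * exp (-s ^ 2 / 2))

/-- The Fisher integral at height `y`. -/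
noncomputable def byv (m : ℕ) (F D : ℝ → ℝ) (y : ℝ) : ℝ :=
  ∫ s in Ioi y, rayR F y s ^ m * (s ^ 2 * exp (-s ^ 2 / 2)) / rayU F D y s

/-- Mass of the radial Gaussian. -/
noncomputable def chiK (m : ℕ) (l : ℝ) : ℝ :=
  ∫ T in Ioi (0 : ℝ), T ^ m * exp (-T ^ 2 / (2 * l))

lemma integrable_pow_gauss (j : ℕ) {b : ℝ} (hb : 0 < b) :
    IntegrableOn (fun s : ℝ => s ^ j * exp (-b * s ^ 2)) (Ioi 0) := by
  have h := integrableOn_rpow_mul_exp_neg_mul_sq (s := (j : ℝ)) hb
    (lt_of_lt_of_le (by norm_num) (Nat.cast_nonneg j))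
  refine h.congr_fun (fun s hs => ?_) measurableSet_Ioi
  simp [Real.rpow_natCast]

variable {m : ℕ} {F D : ℝ → ℝ} {y : ℝ}

lemma Reg.nonneg (h : Reg F D) {t : ℝ} (ht : t ∈ Icc (0 : ℝ) 1) : 0 ≤ F t := by
  rcases ht.2.eq_or_lt with rfl | h1
  exacts [h.zero.ge, (h.pos t ⟨ht.1, h1⟩).le]

lemma div_mem_Icc (hy : 0 < y) {s : ℝ} (hs : y ≤ s) : y / s ∈ Icc (0 : ℝ) 1 :=
  ⟨div_nonneg hy.le (by linarith), (div_le_one (by linarith)).2 hs⟩

lemma Reg.R_cont (h : Reg F D) (hy : 0 < y) : ContinuousOn (rayR F y) (Ici y) :=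
  continuousOn_id.mul (h.cont.comp (continuousOn_const.div continuousOn_id fun s hs =>
    (lt_of_lt_of_le hy hs).ne') fun s hs => div_mem_Icc hy hs)

lemma Reg.R_nonneg (h : Reg F D) (hy : 0 < y) {s : ℝ} (hs : y ≤ s) : 0 ≤ rayR F y s :=
  mul_nonneg (by linarith) (h.nonneg (div_mem_Icc hy hs))

lemma Reg.R_le (h : Reg F D) (hy : 0 < y) {s : ℝ} (hs : y ≤ s) : rayR F y s ≤ s * F 0 :=
  mul_le_mul_of_nonneg_left
    (h.anti ⟨le_rfl, zero_le_one⟩ (div_mem_Icc hy hs) (div_mem_Icc hy hs).1) (by linarith)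

/-- Integrability of a power of the radius against the Gaussian. -/
lemma Reg.intR (h : Reg F D) (hy : 0 < y) (i j : ℕ) :
    IntegrableOn (fun s => rayR F y s ^ i * (s ^ j * exp (-s ^ 2 / 2))) (Ioi y) := by
  have hd := ((integrable_pow_gauss (i + j) (show (0 : ℝ) < 1 / 2 by norm_num)).mono_set
    (Ioi_subset_Ioi hy.le)).const_mul (F 0 ^ i)
  refine Integrable.mono' hd ?_ ?_
  · exact ((((h.R_cont hy).mono Ioi_subset_Ici_self).pow i).mul (by fun_prop)).aestronglyMeasurable
      measurableSet_Ioi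
  · filter_upwards [ae_restrict_mem measurableSet_Ioi] with s hs
    have hs' : y ≤ s := (show y < s from hs).le
    have h0 := h.R_nonneg hy hs'
    have hs0 : 0 ≤ s := by linarith
    rw [Real.norm_of_nonneg (by positivity), show -(1 / 2 : ℝ) * s ^ 2 = -s ^ 2 / 2 by ring,
      show F 0 ^ i * (s ^ (i + j) * exp (-s ^ 2 / 2)) =
        (s * F 0) ^ i * (s ^ j * exp (-s ^ 2 / 2)) by rw [mul_pow, pow_add]; ring]
    exact mul_le_mul_of_nonneg_right (pow_le_pow_left₀ h0 (h.R_le hy hs') _) (by positivity)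

lemma Reg.u_ge (h : Reg F D) (hy : 0 < y) {s : ℝ} (hs : y < s) :
    0 < F (y / s) ∧ F (y / s) ≤ rayU F D y s := by
  have hs0 : 0 < s := hy.trans hs
  have hmem : y / s ∈ Ioo (0 : ℝ) 1 := ⟨div_pos hy hs0, (div_lt_one hs0).2 hs⟩
  have := h.dnonpos _ hmem
  exact ⟨h.pos _ ⟨hmem.1.le, hmem.2⟩, by simp only [rayU]; nlinarith [hmem.1]⟩

lemma rayU_meas (h : Reg F D) (hy : 0 < y) :
    AEStronglyMeasurable (rayU F D y) (volume.restrict (Ioi y)) := by
  have h1 : ContinuousOn (fun s => F (y / s)) (Ioi y) :=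
    h.cont.comp (continuousOn_const.div continuousOn_id fun s hs => (hy.trans hs).ne')
      fun s hs => div_mem_Icc hy (le_of_lt hs)
  exact (h1.aestronglyMeasurable measurableSet_Ioi).sub
    (((measurable_const.div measurable_id).mul
      (h.meas.comp (measurable_const.div measurable_id))).aestronglyMeasurable)

lemma Reg.intB (h : Reg F D) (hm : 1 ≤ m) (hy : 0 < y) :
    IntegrableOn (fun s => rayR F y s ^ m * (s ^ 2 * exp (-s ^ 2 / 2)) / rayU F D y s) (Ioi y) := by
  refine Integrable.mono' (h.intR hy (m - 1) 3) ?_ ?_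
  · have h1 : AEStronglyMeasurable (fun s => rayR F y s ^ m * (s ^ 2 * exp (-s ^ 2 / 2)))
        (volume.restrict (Ioi y)) :=
      ((((h.R_cont hy).mono Ioi_subset_Ici_self).pow m).mul
        (by fun_prop : ContinuousOn (fun s : ℝ => s ^ 2 * exp (-s ^ 2 / 2)) (Ioi y))).aestronglyMeasurable
        measurableSet_Ioi
    exact (h1.aemeasurable.div (rayU_meas h hy).aemeasurable).aestronglyMeasurable
  · filter_upwards [ae_restrict_mem measurableSet_Ioi] with s hs
    obtain ⟨h1, h2⟩ := h.u_ge hy hs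
    have hs0 : 0 < s := hy.trans hs
    have h0 := h.R_nonneg hy (le_of_lt hs)
    rw [Real.norm_of_nonneg (div_nonneg (by positivity) (h1.le.trans h2))]
    refine (div_le_div_of_nonneg_left (by positivity) h1 h2).trans (le_of_eq ?_)
    obtain ⟨i, rfl⟩ : ∃ i, m = i + 1 := ⟨m - 1, by omega⟩
    rw [Nat.add_sub_cancel, pow_succ, rayR]
    field_simp

/-- Primitive of a radius power times a weight, by parts. -/
lemma Reg.parts (h : Reg F D) (hy : 0 < y) {g dg : ℝ → ℝ} (hg : ∀ s, HasDerivAt g (dg s) s)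
    (hdg : Continuous dg) {a S : ℝ} (ha : y < a) (haS : a ≤ S) :
    IntervalIntegrable (fun s => rayR F y s ^ m * rayU F D y s * g s) volume a S ∧
      ∫ s in a..S, rayR F y s ^ m * rayU F D y s * g s =
        (rayR F y S ^ (m + 1) * g S - rayR F y a ^ (m + 1) * g a) / ((m : ℝ) + 1) -
          1 / ((m : ℝ) + 1) * ∫ s in a..S, rayR F y s ^ (m + 1) * dg s := by
  have hgc : Continuous g := continuous_iff_continuousAt.2 fun s => (hg s).continuousAt
  have hsub : Icc a S ⊆ Ici y := fun s hs => ha.le.trans hs.1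
  have hR : ContinuousOn (rayR F y) (Icc a S) := (h.R_cont hy).mono hsub
  obtain ⟨B, hB⟩ := h.bdd (y / a) ((div_lt_one (hy.trans ha)).2 ha)
  obtain ⟨Z, hZ, hd⟩ := h.deriv
  set Z' : Set ℝ := (fun t => y / t) '' Z with hZ'
  have hder : ∀ s ∈ Ioo a S, s ∉ Z' → HasDerivAt (rayR F y) (rayU F D y s) s := by
    intro s hs hsZ
    have hs0 : 0 < s := (hy.trans ha).trans hs.1
    have hmem : y / s ∈ Ioo (0 : ℝ) 1 :=
      ⟨div_pos hy hs0, (div_lt_one hs0).2 (ha.trans hs.1)⟩
    have hnot : y / s ∉ Z := fun hh => hsZ ⟨_, hh, by field_simp⟩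
    have h1 : HasDerivAt (fun s => y / s) (-y / s ^ 2) s := by
      refine ((hasDerivAt_const s y).div (hasDerivAt_id s) hs0.ne').congr_deriv ?_
      simp
    refine ((hasDerivAt_id s).mul ((hd _ hmem hnot).comp s h1)).congr_deriv ?_
    simp only [rayU, id, Function.comp]
    field_simp
    ring
  have hu : IntervalIntegrable (fun s => rayU F D y s) volume a S := by
    rw [intervalIntegrable_iff_integrableOn_Ioc_of_le haS]
    have hle : (Ioc a S) ⊆ Ioi y := fun s hs => ha.trans hs.1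
    refine Integrable.mono' (g := fun _ => F 0 + |B|) (integrableOn_const (by simp))
      ((rayU_meas h hy).mono_measure (Measure.restrict_mono hle le_rfl)) ?_
    filter_upwards [ae_restrict_mem measurableSet_Ioc] with s hs
    · have hs0 : 0 < s := (hy.trans ha).trans hs.1
      obtain ⟨h1, h2⟩ := h.u_ge hy (ha.trans hs.1)
      have hd' := hB (y / s) ⟨div_pos hy hs0, div_le_div_of_nonneg_left hy.le (hy.trans ha) hs.1.le⟩
      rw [Real.norm_of_nonneg (h1.le.trans h2), rayU]
      have h3 := h.anti ⟨le_rfl, zero_le_one⟩ (div_mem_Icc hy (ha.trans hs.1).le)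
        (div_mem_Icc hy (ha.trans hs.1).le).1
      have h4 : y / s * |D (y / s)| ≤ 1 * |B| :=
        mul_le_mul (div_mem_Icc hy (ha.trans hs.1).le).2 (hd'.trans (le_abs_self B)) (abs_nonneg _)
          zero_le_one
      have h5 := neg_abs_le (D (y / s))
      have h6 := mul_le_mul_of_nonneg_left h5 (div_mem_Icc hy (ha.trans hs.1).le).1
      linarith
  have hi : IntervalIntegrable (fun s => rayR F y s ^ m * rayU F D y s * g s) volume a S := by
    refine ((hu.mul_continuousOn (g := fun s => rayR F y s ^ m * g s) ?_).congr fun s _ => by ring)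
    rw [uIcc_of_le haS]
    exact (hR.pow m).mul hgc.continuousOn
  have hi2 : IntervalIntegrable (fun s => rayR F y s ^ (m + 1) * dg s) volume a S :=
    ((hR.pow _).mul hdg.continuousOn).intervalIntegrable_of_Icc haS
  refine ⟨hi, ?_⟩
  have hftc := integral_eq_of_hasDerivAt_off_countable_of_le
    (fun s => rayR F y s ^ (m + 1) * g s)
    (fun s => ((m : ℝ) + 1) * (rayR F y s ^ m * rayU F D y s * g s) +
      rayR F y s ^ (m + 1) * dg s) haS (hZ.image _) ((hR.pow _).mul hgc.continuousOn)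
    (fun s hs => by
      refine (((hder s hs.1 hs.2).pow (m + 1)).mul (hg s)).congr_deriv ?_
      push_cast
      simp
      ring) ((hi.const_mul _).add hi2)
  rw [intervalIntegral.integral_add (hi.const_mul _) hi2, intervalIntegral.integral_const_mul] at hftc
  field_simp
  linarith

/-- A transport target: the inverse of the radial Gaussian mass. -/
lemma exists_inverse {l : ℝ} (hl : 0 < l) {v : ℝ} (hv : v < chiK m l) :
    ∃ (T : ℝ → ℝ) (τ : ℝ), Continuous T ∧ T 0 = 0 ∧
      (∀ x ∈ Ioc (0 : ℝ) v, 0 < T x ∧ T x ≤ τ ∧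
        HasDerivAt T ((T x ^ m * exp (-T x ^ 2 / (2 * l)))⁻¹) x) ∧
      (∀ x ∈ Icc (0 : ℝ) v, 0 ≤ T x ∧ T x ≤ τ) := by
  have hint : IntegrableOn (fun T : ℝ => T ^ m * exp (-T ^ 2 / (2 * l))) (Ioi 0) := by
    refine (integrable_pow_gauss m (show 0 < 1 / (2 * l) by positivity)).congr_fun (fun s _ => ?_)
      measurableSet_Ioi
    simp only
    congr 2
    ring
  have hlim := intervalIntegral_tendsto_integral_Ioi 0 hint tendsto_id
  obtain ⟨τ, hτv, hτ0⟩ := ((hlim.eventually_const_lt hv).and (eventually_gt_atTop 0)).exists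
  simp only [id] at hτv
  set cl : ℝ → ℝ := fun x => max (-τ) (min x τ) with hcl
  set χ : ℝ → ℝ := fun x => |cl x| ^ m * exp (-cl x ^ 2 / (2 * l)) with hχ
  have hχc : Continuous χ := by fun_prop
  have hχ0 : ∀ x, 0 ≤ χ x := fun x => by positivity
  have hχp : ∀ x, x ≠ 0 → 0 < χ x := fun x hx => by
    have : cl x ≠ 0 := by
      simp only [hcl]
      rcases lt_or_gt_of_ne hx with h | h
      · exact (max_lt (by linarith) ((min_le_left _ _).trans_lt h)).ne
      · exact (lt_max_of_lt_right (lt_min h hτ0)).ne'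
    positivity
  set M : ℝ → ℝ := fun x => ∫ t in (0 : ℝ)..x, χ t with hM
  have hMd : ∀ x, HasDerivAt M (χ x) x := fun x =>
    integral_hasDerivAt_right (hχc.intervalIntegrable _ _)
      hχc.aestronglyMeasurable.stronglyMeasurableAtFilter hχc.continuousAt
  have hMc : Continuous M := continuous_iff_continuousAt.2 fun x => (hMd x).continuousAt
  have hMm : StrictMono M := by
    intro a b hab
    have h := intervalIntegral.integral_pos (f := χ) hab hχc.continuousOn (fun x _ => hχ0 x)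
      (by
        rcases eq_or_ne a 0 with rfl | ha
        · exact ⟨b, right_mem_Icc.2 hab.le, hχp b hab.ne'⟩
        · exact ⟨a, left_mem_Icc.2 hab.le, hχp a ha⟩)
    have h2 := integral_add_adjacent_intervals (hχc.intervalIntegrable (μ := volume) 0 a)
      (hχc.intervalIntegrable (μ := volume) a b)
    simp only [hM]
    linarith
  have htop : Tendsto M atTop atTop := by
    have e : ∀ x, τ ≤ x → M x = M τ + (x - τ) * χ τ := fun x hx => by
      have h1 : ∫ t in τ..x, χ t = ∫ _t in τ..x, χ τ := integral_congr fun t ht => by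
        rw [uIcc_of_le hx] at ht
        simp [hχ, hcl, min_eq_right ht.1]
      simp only [hM]
      rw [← integral_add_adjacent_intervals (hχc.intervalIntegrable (μ := volume) 0 τ)
        (hχc.intervalIntegrable τ x), h1, intervalIntegral.integral_const, smul_eq_mul]
    refine (tendsto_atTop_add_const_left _ (M τ)
      ((tendsto_atTop_add_const_right _ (-τ) tendsto_id).atTop_mul_const
        (hχp τ hτ0.ne'))).congr' ?_
    filter_upwards [eventually_ge_atTop τ] with x hx
    rw [e x hx]; simp [sub_eq_add_neg]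
  have hbot : Tendsto M atBot atBot := by
    have e : ∀ x, x ≤ -τ → M x = M (-τ) + (x + τ) * χ (-τ) := fun x hx => by
      have h1 : ∫ t in (-τ)..x, χ t = ∫ _t in (-τ)..x, χ (-τ) := integral_congr fun t ht => by
        rw [uIcc_of_ge hx] at ht
        simp [hχ, hcl, min_eq_left (show t ≤ τ by linarith [ht.2]), max_eq_left ht.2, hτ0.le]
      simp only [hM]
      rw [← integral_add_adjacent_intervals (hχc.intervalIntegrable (μ := volume) 0 (-τ))
        (hχc.intervalIntegrable (-τ) x), h1, intervalIntegral.integral_const, smul_eq_mul]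
      ring
    refine (tendsto_atBot_add_const_left _ (M (-τ))
      ((tendsto_atBot_add_const_right _ τ tendsto_id).atBot_mul_const
        (hχp (-τ) (by linarith)))).congr' ?_
    filter_upwards [eventually_le_atBot (-τ)] with x hx
    rw [e x hx]; simp
  set e := StrictMono.orderIsoOfSurjective M hMm (hMc.surjective htop hbot) with he
  have heM : ∀ x, M (e.symm x) = x := fun x => e.apply_symm_apply x
  have hM0 : M 0 = 0 := by simp [hM]
  have hTτ : ∀ x ≤ v, e.symm x ≤ τ := fun x hx => by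
    by_contra hlt
    have h1 := hMm (not_le.1 hlt)
    rw [heM] at h1
    have : M τ = ∫ t in (0 : ℝ)..τ, t ^ m * exp (-t ^ 2 / (2 * l)) := by
      refine integral_congr fun t ht => ?_
      rw [uIcc_of_le hτ0.le] at ht
      simp [hχ, hcl, min_eq_left ht.2, max_eq_right (show -τ ≤ t by linarith [ht.1]), abs_of_nonneg ht.1]
    linarith
  have hT0 : e.symm 0 = 0 := hMm.injective (by rw [heM, hM0])
  refine ⟨fun x => e.symm x, τ, e.symm.continuous, hT0, fun x hx => ?_, fun x hx =>
    ⟨hT0.symm.trans_le (e.symm.monotone hx.1), hTτ x hx.2⟩⟩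
  have hpos : 0 < e.symm x := hT0.symm.trans_lt (e.symm.strictMono hx.1)
  have hle := hTτ x hx.2
  refine ⟨hpos, hle, ?_⟩
  have h := (hMd (e.symm x)).of_local_left_inverse e.symm.continuous.continuousAt
    (hχp _ hpos.ne').ne' (Eventually.of_forall fun z => heM z)
  refine h.congr_deriv ?_
  simp [hχ, hcl, min_eq_left hle, max_eq_right (show -τ ≤ e.symm x by linarith), abs_of_pos hpos]

/-- Primitive of the weight. -/
noncomputable def wPrim (m : ℕ) (F : ℝ → ℝ) (y : ℝ) (g dg : ℝ → ℝ) (s : ℝ) : ℝ :=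
  (rayR F y s ^ (m + 1) * g s - ∫ x in y..s, rayR F y x ^ (m + 1) * dg x) / ((m : ℝ) + 1)

/-- The transported weight. -/
noncomputable def wt (m : ℕ) (F D : ℝ → ℝ) (y s : ℝ) : ℝ :=
  rayR F y s ^ m * rayU F D y s * exp (-s ^ 2 / 2)

lemma exp_deriv (s : ℝ) :
    HasDerivAt (fun x : ℝ => exp (-x ^ 2 / 2)) (-(s * exp (-s ^ 2 / 2))) s := by
  refine (((hasDerivAt_pow 2 s).neg.div_const 2).exp).congr_deriv ?_
  simp
  ring

lemma sq_exp_deriv (s : ℝ) : HasDerivAt (fun x : ℝ => x ^ 2 * exp (-x ^ 2 / 2))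
    (-((s ^ 3 - 2 * s) * exp (-s ^ 2 / 2))) s := by
  refine ((hasDerivAt_pow 2 s).mul (exp_deriv s)).congr_deriv ?_
  simp
  ring

lemma Reg.intRg (h : Reg F D) (hy : 0 < y) {g : ℝ → ℝ} (hg : Continuous g) {a S : ℝ}
    (ha : y ≤ a) (haS : a ≤ S) (i : ℕ) :
    IntervalIntegrable (fun x => rayR F y x ^ i * g x) volume a S :=
  ((((h.R_cont hy).mono fun _ hs => ha.trans hs.1).pow _).mul
    hg.continuousOn).intervalIntegrable_of_Icc haS

lemma Reg.prim_eq (h : Reg F D) (hy : 0 < y) {g dg : ℝ → ℝ} (hg : ∀ s, HasDerivAt g (dg s) s)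
    (hdg : Continuous dg) {a S : ℝ} (ha : y < a) (haS : a ≤ S) :
    ∫ s in a..S, rayR F y s ^ m * rayU F D y s * g s =
      wPrim m F y g dg S - wPrim m F y g dg a := by
  rw [(h.parts hy hg hdg ha haS).2]
  simp only [wPrim]
  rw [← integral_add_adjacent_intervals (h.intRg hy hdg le_rfl ha.le (m + 1))
    (h.intRg hy hdg ha.le haS (m + 1))]
  ring

lemma Reg.prim_start (h : Reg F D) (hy : 0 < y) {g dg : ℝ → ℝ} (hg : ∀ s, HasDerivAt g (dg s) s)
    (hdg : Continuous dg) {a : ℕ → ℝ} (ha : Tendsto a atTop (𝓝[Ici y] y)) :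
    Tendsto (fun j => wPrim m F y g dg (a j)) atTop (𝓝 0) := by
  have hgc : Continuous g := continuous_iff_continuousAt.2 fun s => (hg s).continuousAt
  have hy1 : y ≤ y + 1 := by linarith
  have hp := continuousOn_primitive_interval (μ := volume) (a := y) (b := y + 1)
    (f := fun x => rayR F y x ^ (m + 1) * dg x) (by
      rw [uIcc_of_le hy1]
      exact (intervalIntegrable_iff_integrableOn_Icc_of_le hy1 enorm_ne_top).1
        (h.intRg hy hdg le_rfl hy1 _))
  rw [uIcc_of_le hy1] at hp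
  have hc : ContinuousOn (wPrim m F y g dg) (Icc y (y + 1)) :=
    ((((h.R_cont hy).mono Icc_subset_Ici_self).pow _).mul hgc.continuousOn).sub hp |>.div_const _
  have h1 := ((hc y (left_mem_Icc.2 hy1)).mono_of_mem_nhdsWithin
    (Icc_mem_nhdsGE (by linarith))).tendsto.comp ha
  have h0 : wPrim m F y g dg y = 0 := by simp [wPrim, rayR, div_self hy.ne', h.zero]
  rwa [h0] at h1

lemma Reg.vanish (h : Reg F D) (hy : 0 < y) (i j : ℕ) :
    Tendsto (fun s => rayR F y s ^ i * (s ^ j * exp (-s ^ 2 / 2))) atTop (𝓝 0) := by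
  have h1 : Tendsto (fun s : ℝ => F 0 ^ i * (s ^ (i + j) * exp (-s))) atTop (𝓝 0) := by
    simpa using (Real.tendsto_pow_mul_exp_neg_atTop_nhds_zero (i + j)).const_mul (F 0 ^ i)
  refine squeeze_zero' ?_ ?_ h1
  · filter_upwards [eventually_ge_atTop y] with s hs
    have := h.R_nonneg hy hs
    have hs0 : 0 ≤ s := by linarith
    positivity
  · filter_upwards [eventually_ge_atTop y, eventually_ge_atTop 2] with s hs h2
    have h3 := h.R_le hy hs
    have h4 := h.R_nonneg hy hs
    have hs0 : 0 ≤ s := by linarith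
    rw [show F 0 ^ i * (s ^ (i + j) * exp (-s)) = (s * F 0) ^ i * (s ^ j * exp (-s)) by
      rw [mul_pow, pow_add]; ring]
    exact mul_le_mul (pow_le_pow_left₀ h4 h3 _)
      (mul_le_mul_of_nonneg_left (exp_le_exp.2 (by nlinarith)) (by positivity))
      (by positivity) (pow_nonneg (h4.trans h3) _)

lemma Reg.int_ey (h : Reg F D) (hy : 0 < y) : IntegrableOn
    (fun s => rayR F y s ^ (m + 1) * ((s ^ 3 - 2 * s) * exp (-s ^ 2 / 2))) (Ioi y) :=
  ((h.intR hy (m + 1) 3).sub ((h.intR hy (m + 1) 1).const_mul 2)).congr_fun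
    (fun s _ => by simp; ring) measurableSet_Ioi

lemma Reg.lim_W (h : Reg F D) (hy : 0 < y) {S : ℕ → ℝ} (hS : Tendsto S atTop atTop) :
    Tendsto (fun j => wPrim m F y (fun x => exp (-x ^ 2 / 2)) (fun x => -(x * exp (-x ^ 2 / 2))) (S j))
      atTop (𝓝 (qy m F y)) := by
  have hint : IntegrableOn (fun s => rayR F y s ^ (m + 1) * (s * exp (-s ^ 2 / 2))) (Ioi y) := by
    simpa using h.intR hy (m + 1) 1
  have h1 := intervalIntegral_tendsto_integral_Ioi y hint hS
  have h2 := (h.vanish hy (m + 1) 0).comp hS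
  have h3 := (h2.add h1).div_const ((m : ℝ) + 1)
  simp only [pow_zero, one_mul, zero_add, Function.comp] at h3
  refine (h3.congr fun j => ?_).trans_eq ?_
  · simp [wPrim, mul_neg, intervalIntegral.integral_neg]
  · rw [qy, div_eq_mul_one_div, mul_comm]

lemma Reg.lim_V (h : Reg F D) (hy : 0 < y) {S : ℕ → ℝ} (hS : Tendsto S atTop atTop) :
    Tendsto (fun j => wPrim m F y (fun x => x ^ 2 * exp (-x ^ 2 / 2))
      (fun x => -((x ^ 3 - 2 * x) * exp (-x ^ 2 / 2))) (S j)) atTop (𝓝 (ey m F y)) := by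
  have h1 := intervalIntegral_tendsto_integral_Ioi y (h.int_ey (m := m) hy) hS
  have h2 := (h.vanish hy (m + 1) 2).comp hS
  have h3 := (h2.add h1).div_const ((m : ℝ) + 1)
  simp only [zero_add, Function.comp] at h3
  refine (h3.congr fun j => ?_).trans_eq ?_
  · simp [wPrim, mul_neg, intervalIntegral.integral_neg]
  · rw [ey, div_eq_mul_one_div, mul_comm]

lemma Reg.wt_pos (h : Reg F D) (hy : 0 < y) {s : ℝ} (hs : y < s) : 0 < wt m F D y s := by
  obtain ⟨h1, h2⟩ := h.u_ge hy hs
  exact mul_pos (mul_pos (pow_pos (mul_pos (hy.trans hs) h1) _) (h1.trans_le h2)) (exp_pos _)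

/-- The primitive of the weight stays in `(0, qy]`. -/
lemma Reg.W_mem (h : Reg F D) (hy : 0 < y) {s : ℝ} (hs : y < s) :
    wPrim m F y (fun x => exp (-x ^ 2 / 2)) (fun x => -(x * exp (-x ^ 2 / 2))) s ∈
      Ioc 0 (qy m F y) := by
  set W := wPrim m F y (fun x => exp (-x ^ 2 / 2)) (fun x => -(x * exp (-x ^ 2 / 2))) with hW
  have hmono : ∀ a S, y < a → a < S → W a < W S := fun a S ha haS => by
    have h1 := (h.parts (m := m) hy exp_deriv (by fun_prop) ha haS.le).1
    have h2 := h.prim_eq (m := m) hy exp_deriv (by fun_prop) ha haS.le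
    have h3 := intervalIntegral_pos_of_pos_on h1 (fun x hx => h.wt_pos hy (ha.trans hx.1)) haS
    rw [h2] at h3
    simp only [hW]
    linarith
  have hat : Tendsto (fun j : ℕ => y + 1 / ((j : ℝ) + 1)) atTop (𝓝[Ici y] y) :=
    tendsto_nhdsWithin_iff.2 ⟨by
      simpa using (tendsto_one_div_add_atTop_nhds_zero_nat (𝕜 := ℝ)).const_add y,
      Eventually.of_forall fun j => (le_add_of_nonneg_right (by positivity : (0 : ℝ) ≤ 1 / ((j : ℝ) + 1)) :
        y ≤ y + 1 / ((j : ℝ) + 1))⟩
  refine ⟨?_, ?_⟩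
  · refine lt_of_le_of_lt (le_of_tendsto (h.prim_start (m := m) hy exp_deriv (by fun_prop) hat) ?_)
      (hmono ((y + s) / 2) s (by linarith) (by linarith))
    filter_upwards [(tendsto_nhdsWithin_iff.1 hat).1.eventually_lt_const
      (show y < (y + s) / 2 by linarith)] with j hj
    exact (hmono _ _ (lt_add_of_pos_right _ (by positivity)) hj).le
  · have hSt : Tendsto (fun j : ℕ => y + ((j : ℝ) + 2)) atTop atTop :=
      tendsto_atTop_add_const_left _ _ (tendsto_atTop_add_const_right _ _ tendsto_natCast_atTop_atTop)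
    refine ge_of_tendsto (h.lim_W hy hSt) ?_
    filter_upwards [hSt.eventually_gt_atTop s] with j hj using (hmono _ _ hs hj).le

/-- Pointwise: logarithms of the two factors of the transport, then `2ab ≤ a² + b²`. -/
lemma pointwise {w R u e s T dT dH K P l : ℝ} {m : ℕ} (hm : 1 ≤ m) (hR : 0 < R) (hu : 0 < u)
    (he : e = exp (-s ^ 2 / 2)) (hw : w = R ^ m * u * e) (hT : 0 < T) (hl : 0 < l) (hK : 0 < K)
    (hP : 0 < P) (hdT : dT = K / P * w * ((T ^ m * exp (-T ^ 2 / (2 * l)))⁻¹))
    (hdH : dH = dT * (R ^ m * e) + T * ((m : ℝ) * R ^ (m - 1) * u * e - R ^ m * (s * e))) :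
    w * s ^ 2 * (-1 / 2) + (-log P) * w ≤
      (-log K - ((m : ℝ) + 1)) * w + dH + l / 2 * (R ^ m * (s ^ 2 * e) / u) := by
  have he0 : 0 < e := he ▸ exp_pos _
  have hw0 : 0 < w := hw ▸ mul_pos (mul_pos (pow_pos hR m) hu) he0
  have hdT0 : 0 < dT := by
    rw [hdT]
    exact mul_pos (mul_pos (div_pos hK hP) hw0) (inv_pos.2 (mul_pos (pow_pos hT m) (exp_pos _)))
  have hlog : log dT = log K - log P + ((m : ℝ) * log R + log u - s ^ 2 / 2) -
      ((m : ℝ) * log T - T ^ 2 / (2 * l)) := by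
    rw [hdT, log_mul (mul_pos (div_pos hK hP) hw0).ne'
        (inv_ne_zero (mul_pos (pow_pos hT m) (exp_pos _)).ne'),
      log_mul (div_pos hK hP).ne' hw0.ne', log_div hK.ne' hP.ne', hw, he,
      log_mul (mul_pos (pow_pos hR m) hu).ne' (exp_pos _).ne', log_mul (pow_pos hR m).ne' hu.ne',
      log_pow, log_exp, log_inv, log_mul (pow_pos hT m).ne' (exp_pos _).ne', log_pow, log_exp]
    ring
  have h1 := log_le_sub_one_of_pos (div_pos hdT0 hu)
  rw [log_div hdT0.ne' hu.ne', hlog] at h1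
  have h2 := mul_le_mul_of_nonneg_left (log_le_sub_one_of_pos (div_pos hT hR))
    (Nat.cast_nonneg (α := ℝ) m)
  rw [log_div hT.ne' hR.ne'] at h2
  have h3 : -(s ^ 2) / 2 - log P ≤ -log K - ((m : ℝ) + 1) +
      (dT / u + (m : ℝ) * (T / R)) - T ^ 2 / (2 * l) := by
    linarith
  have h4 := mul_le_mul_of_nonneg_left h3 hw0.le
  have h5 : w * (dT / u + (m : ℝ) * (T / R)) = dH + T * (R ^ m * (s * e)) := by
    obtain ⟨i, rfl⟩ : ∃ i, m = i + 1 := ⟨m - 1, by omega⟩
    rw [hdH, hw]
    simp only [Nat.add_sub_cancel, pow_succ]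
    field_simp
    ring
  have h7 : T * s ≤ u * T ^ 2 / (2 * l) + l / 2 * (s ^ 2 / u) := by
    rw [div_mul_div_comm, div_add_div _ _ (by positivity) (by positivity),
      le_div_iff₀ (by positivity)]
    nlinarith [sq_nonneg (u * T - l * s)]
  have h8 := mul_le_mul_of_nonneg_left h7 (mul_nonneg (pow_nonneg hR.le m) he0.le)
  have h9 : T * (R ^ m * (s * e)) ≤ w * (T ^ 2 / (2 * l)) + l / 2 * (R ^ m * (s ^ 2 * e) / u) := by
    calc _ = R ^ m * e * (T * s) := by ring
      _ ≤ _ := h8
      _ = _ := by rw [hw]; ring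
  linear_combination h4 + h5 + h9

/-- The inequality on a compact piece. -/
lemma Reg.step (h : Reg F D) (hm : 1 ≤ m) (hy : 0 < y) {l η : ℝ} (hl : 0 < l) (hη : 0 < η)
    (hK : 0 < chiK m l) {Ti : ℝ → ℝ} (hTc : Continuous Ti)
    (hTd : ∀ x ∈ Ioc (0 : ℝ) (chiK m l / (qy m F y + η) * qy m F y), 0 < Ti x ∧
      HasDerivAt Ti ((Ti x ^ m * exp (-Ti x ^ 2 / (2 * l)))⁻¹) x)
    {W V H : ℝ → ℝ}
    (hW : W = wPrim m F y (fun x => exp (-x ^ 2 / 2)) (fun x => -(x * exp (-x ^ 2 / 2))))
    (hV : V = wPrim m F y (fun x => x ^ 2 * exp (-x ^ 2 / 2))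
      (fun x => -((x ^ 3 - 2 * x) * exp (-x ^ 2 / 2))))
    (hH : H = fun s => Ti (chiK m l / (qy m F y + η) * W s) * (rayR F y s ^ m * exp (-s ^ 2 / 2)))
    {a S : ℝ} (ha : y < a) (haS : a ≤ S) :
    -(V S - V a) / 2 - log (qy m F y + η) * (W S - W a) ≤
      (-log (chiK m l) - ((m : ℝ) + 1)) * (W S - W a) + (H S - H a) +
        l / 2 * ∫ s in a..S, rayR F y s ^ m * (s ^ 2 * exp (-s ^ 2 / 2)) / rayU F D y s := by
  set c := chiK m l / (qy m F y + η) with hc
  have hq0 : 0 < qy m F y := lt_of_lt_of_le (h.W_mem (m := m) hy (show y < y + 1 by linarith)).1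
    (h.W_mem (m := m) hy (show y < y + 1 by linarith)).2
  have hc0 : 0 < c := div_pos hK (by linarith)
  have hRc : ContinuousOn (rayR F y) (Icc a S) := (h.R_cont hy).mono fun s hs => ha.le.trans hs.1
  obtain ⟨i1, -⟩ := h.parts (m := m) hy exp_deriv (by fun_prop) ha haS
  have e1 : ∫ s in a..S, wt m F D y s = W S - W a := by
    rw [hW]; exact h.prim_eq hy exp_deriv (by fun_prop) ha haS
  obtain ⟨i2, -⟩ := h.parts (m := m) hy sq_exp_deriv (by fun_prop) ha haS
  have ee : ∀ s, wt m F D y s * s ^ 2 =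
      rayR F y s ^ m * rayU F D y s * (s ^ 2 * exp (-s ^ 2 / 2)) := fun s => by simp only [wt]; ring
  have i2' : IntervalIntegrable (fun s => wt m F D y s * s ^ 2) volume a S :=
    i2.congr fun s _ => (ee s).symm
  have e2 : ∫ s in a..S, wt m F D y s * s ^ 2 = V S - V a := by
    simp only [ee]; rw [hV]; exact h.prim_eq hy sq_exp_deriv (by fun_prop) ha haS
  have hWc : ContinuousOn W (Icc a S) := by
    have h1 := continuousOn_primitive_interval (μ := volume) (a := y) (b := S)
      (f := fun x => rayR F y x ^ (m + 1) * -(x * exp (-x ^ 2 / 2)))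
      (by rw [uIcc_of_le (by linarith)]
          exact (intervalIntegrable_iff_integrableOn_Icc_of_le (by linarith) enorm_ne_top).1
            (h.intRg hy (by fun_prop) le_rfl (by linarith) _))
    rw [uIcc_of_le (by linarith)] at h1
    rw [hW]
    exact (((hRc.pow _).mul (by fun_prop)).sub (h1.mono (Icc_subset_Icc ha.le le_rfl))).div_const _
  set T : ℝ → ℝ := fun s => Ti (c * W s) with hT
  have hTcont : ContinuousOn T (Icc a S) := hTc.comp_continuousOn (hWc.const_smul c)
  have hmem : ∀ s ∈ Icc a S, c * W s ∈ Ioc (0 : ℝ) (c * qy m F y) := fun s hs => by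
    rw [hW]
    exact ⟨mul_pos hc0 (h.W_mem hy (ha.trans_le hs.1)).1,
      mul_le_mul_of_nonneg_left (h.W_mem hy (ha.trans_le hs.1)).2 hc0.le⟩
  set dT : ℝ → ℝ := fun s => c * wt m F D y s * ((T s ^ m * exp (-T s ^ 2 / (2 * l)))⁻¹) with hdT
  set dH : ℝ → ℝ := fun s => dT s * (rayR F y s ^ m * exp (-s ^ 2 / 2)) +
    T s * ((m : ℝ) * rayR F y s ^ (m - 1) * rayU F D y s * exp (-s ^ 2 / 2) -
      rayR F y s ^ m * (s * exp (-s ^ 2 / 2))) with hdH
  have idT : IntervalIntegrable dT volume a S := by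
    refine (i1.mul_continuousOn (g := fun s => c * ((T s ^ m * exp (-T s ^ 2 / (2 * l)))⁻¹)) ?_).congr
      fun s _ => by simp only [hdT, wt]; ring
    rw [uIcc_of_le haS]
    refine continuousOn_const.mul (((hTcont.pow m).mul ((hTcont.pow 2).neg.div_const _).rexp).inv₀ ?_)
    exact fun s hs => (mul_pos (pow_pos (hTd _ (hmem s hs)).1 m) (exp_pos _)).ne'
  obtain ⟨i3, -⟩ := h.parts (m := m - 1) hy exp_deriv (by fun_prop) ha haS
  have idH : IntervalIntegrable dH volume a S := by
    have i4 : IntervalIntegrable (fun s => (m : ℝ) * rayR F y s ^ (m - 1) * rayU F D y s *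
        exp (-s ^ 2 / 2)) volume a S := (i3.const_mul (m : ℝ)).congr fun s _ => by ring
    refine (idT.mul_continuousOn ?_).add
      ((i4.sub (h.intRg hy (by fun_prop) ha.le haS m)).continuousOn_mul ?_)
    · rw [uIcc_of_le haS]; exact (hRc.pow m).mul (by fun_prop)
    · rw [uIcc_of_le haS]; exact hTcont
  obtain ⟨Z, hZ, hd⟩ := h.deriv
  have hgood : ∀ s ∈ Ioo a S, y / s ∉ Z → HasDerivAt H (dH s) s := by
    intro s hs hsZ
    have hs0 : 0 < s := (hy.trans ha).trans hs.1
    have hmem' : y / s ∈ Ioo (0 : ℝ) 1 :=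
      ⟨div_pos hy hs0, (div_lt_one hs0).2 (ha.trans hs.1)⟩
    have h1 : HasDerivAt (fun s => y / s) (-y / s ^ 2) s := by
      refine ((hasDerivAt_const s y).div (hasDerivAt_id s) hs0.ne').congr_deriv ?_
      simp
    have hR' : HasDerivAt (rayR F y) (rayU F D y s) s := by
      refine ((hasDerivAt_id s).mul ((hd _ hmem' hsZ).comp s h1)).congr_deriv ?_
      simp only [rayU, id, Function.comp]
      field_simp
      ring
    have hI : HasDerivAt (fun x => ∫ t in y..x, rayR F y t ^ (m + 1) * -(t * exp (-t ^ 2 / 2)))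
        (rayR F y s ^ (m + 1) * -(s * exp (-s ^ 2 / 2))) s :=
      integral_hasDerivAt_right (h.intRg hy (by fun_prop) le_rfl (by linarith [hs.1]) _)
        (((((h.R_cont hy).mono Ioi_subset_Ici_self).pow _).mul (by fun_prop)).stronglyMeasurableAtFilter
          isOpen_Ioi s (ha.trans hs.1))
        ((hR'.continuousAt.pow _).mul (by fun_prop))
    have hWd : HasDerivAt W (wt m F D y s) s := by
      rw [hW]
      refine ((((hR'.pow (m + 1)).mul (exp_deriv s)).sub hI).div_const _).congr_deriv ?_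
      simp only [wt]
      push_cast
      simp
      field_simp
    have hTd' : HasDerivAt T (dT s) s := by
      refine ((hTd _ (hmem s (Ioo_subset_Icc_self hs))).2.comp s (hWd.const_mul c)).congr_deriv ?_
      simp only [hdT, hT]
      ring
    rw [hH]
    refine (hTd'.mul ((hR'.pow m).mul (exp_deriv s))).congr_deriv ?_
    simp only [hdH, Pi.pow_apply, Pi.mul_apply]
    ring
  have hftc : ∫ s in a..S, dH s = H S - H a :=
    integral_eq_of_hasDerivAt_off_countable_of_le H dH haS (hZ.image fun t => y / t)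
      (by rw [hH]; exact hTcont.mul ((hRc.pow m).mul (by fun_prop))) (fun s hs => by
        refine hgood s hs.1 fun hh => hs.2 ⟨_, hh, ?_⟩
        have : s ≠ 0 := ((hy.trans ha).trans hs.1.1).ne'
        field_simp) idH
  have iB : IntervalIntegrable
      (fun s => rayR F y s ^ m * (s ^ 2 * exp (-s ^ 2 / 2)) / rayU F D y s) volume a S := by
    rw [intervalIntegrable_iff_integrableOn_Ioc_of_le haS]
    exact (h.intB hm hy).mono_set fun s hs => ha.trans hs.1
  have key : ∀ s ∈ Ioo a S, wt m F D y s * s ^ 2 * (-1 / 2) + (-log (qy m F y + η)) * wt m F D y s ≤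
      (-log (chiK m l) - ((m : ℝ) + 1)) * wt m F D y s + dH s +
        l / 2 * (rayR F y s ^ m * (s ^ 2 * exp (-s ^ 2 / 2)) / rayU F D y s) := by
    intro s hs
    obtain ⟨hF', hu'⟩ := h.u_ge hy (ha.trans hs.1)
    exact pointwise hm (mul_pos ((hy.trans ha).trans hs.1) hF') (hF'.trans_le hu') rfl rfl
      (hTd _ (hmem s (Ioo_subset_Icc_self hs))).1 hl hK (by linarith) rfl rfl
  have hint := integral_mono_on_of_le_Ioo haS
    ((i2'.mul_const _).add (i1.const_mul _)) (((i1.const_mul _).add idH).add (iB.const_mul _)) key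
  rw [intervalIntegral.integral_add (i2'.mul_const _) (i1.const_mul _),
    intervalIntegral.integral_add ((i1.const_mul _).add idH) (iB.const_mul _),
    intervalIntegral.integral_add (i1.const_mul _) idH, intervalIntegral.integral_mul_const,
    intervalIntegral.integral_const_mul, intervalIntegral.integral_const_mul,
    intervalIntegral.integral_const_mul, hftc] at hint
  have e1' : ∫ s in a..S, rayR F y s ^ m * rayU F D y s * exp (-s ^ 2 / 2) = W S - W a := e1
  simp only [wt] at hint e1 e2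
  rw [e1, e2] at hint
  linarith

lemma Reg.byv_piece (h : Reg F D) (hm : 1 ≤ m) (hy : 0 < y) {a S : ℝ} (ha : y < a) (haS : a ≤ S) :
    ∫ s in a..S, rayR F y s ^ m * (s ^ 2 * exp (-s ^ 2 / 2)) / rayU F D y s ≤ byv m F D y := by
  rw [intervalIntegral.integral_of_le haS]
  refine setIntegral_mono_set (h.intB hm hy) ?_
    (HasSubset.Subset.eventuallyLE fun s hs => ha.trans hs.1)
  filter_upwards [ae_restrict_mem measurableSet_Ioi] with s hs
  obtain ⟨h1, h2⟩ := h.u_ge hy hs
  have := h.R_nonneg hy (le_of_lt hs)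
  exact div_nonneg (by positivity) (h1.le.trans h2)

/-- **The inequality at one height.** -/
theorem per_y (h : Reg F D) (hm : 1 ≤ m) (hy : 0 < y) {l : ℝ} (hl : 0 < l) (hK : 0 < chiK m l) :
    -ey m F y / 2 - qy m F y * log (qy m F y) ≤
      qy m F y * (-log (chiK m l) - ((m : ℝ) + 1)) + l / 2 * byv m F D y := by
  have hy1 : y < y + 1 := by linarith
  have hq0 : 0 < qy m F y := lt_of_lt_of_le (h.W_mem (m := m) hy hy1).1 (h.W_mem (m := m) hy hy1).2
  set S : ℕ → ℝ := fun j => y + ((j : ℝ) + 2) with hS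
  set a : ℕ → ℝ := fun j => y + 1 / ((j : ℝ) + 1) with ha
  have haj : ∀ j, y < a j := fun j => lt_add_of_pos_right _ (by positivity)
  have hajS : ∀ j, a j ≤ S j := fun j => by
    have : 1 / ((j : ℝ) + 1) ≤ 1 := (div_le_one (by positivity)).2 (by simp)
    simp only [ha, hS]; linarith [Nat.cast_nonneg (α := ℝ) j]
  have hSt : Tendsto S atTop atTop :=
    tendsto_atTop_add_const_left _ _ (tendsto_atTop_add_const_right _ _ tendsto_natCast_atTop_atTop)
  have hat : Tendsto a atTop (𝓝[Ici y] y) := tendsto_nhdsWithin_iff.2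
    ⟨by simpa [ha] using (tendsto_one_div_add_atTop_nhds_zero_nat (𝕜 := ℝ)).const_add y,
      Eventually.of_forall fun j => (haj j).le⟩
  have main : ∀ η > 0, -ey m F y / 2 - qy m F y * log (qy m F y + η) ≤
      qy m F y * (-log (chiK m l) - ((m : ℝ) + 1)) + l / 2 * byv m F D y := by
    intro η hη
    set c := chiK m l / (qy m F y + η) with hc
    have hc0 : 0 < c := div_pos hK (by linarith)
    have hv : c * qy m F y < chiK m l := by
      rw [hc, div_mul_eq_mul_div, div_lt_iff₀ (by linarith)]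
      exact mul_lt_mul_of_pos_left (by linarith) hK
    obtain ⟨Ti, τ, hTc, hT0, hTd, hTb⟩ := exists_inverse (m := m) hl hv
    set W := wPrim m F y (fun x => exp (-x ^ 2 / 2)) (fun x => -(x * exp (-x ^ 2 / 2))) with hW
    set H : ℝ → ℝ := fun s => Ti (c * W s) * (rayR F y s ^ m * exp (-s ^ 2 / 2)) with hH
    have hst := fun j => (h.step hm hy hl hη hK hTc (fun x hx => ⟨(hTd x hx).1, (hTd x hx).2.2⟩)
      rfl rfl rfl (haj j) (hajS j)).trans
      (add_le_add le_rfl (mul_le_mul_of_nonneg_left (h.byv_piece hm hy (haj j) (hajS j)) (by positivity)))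
    have hlimW := h.lim_W (m := m) hy hSt
    have hlima := h.prim_start (m := m) hy exp_deriv (by fun_prop) hat
    have hTW : ∀ s, y < s → 0 ≤ Ti (c * W s) ∧ Ti (c * W s) ≤ τ := fun s hs => hTb _
      ⟨(mul_pos hc0 (h.W_mem hy hs).1).le, mul_le_mul_of_nonneg_left (h.W_mem hy hs).2 hc0.le⟩
    have hRnn : ∀ s, y < s → 0 ≤ rayR F y s ^ m * exp (-s ^ 2 / 2) := fun s hs =>
      mul_nonneg (pow_nonneg (h.R_nonneg hy hs.le) _) (exp_pos _).le
    have hHS : Tendsto (fun j => H (S j)) atTop (𝓝 0) := by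
      have h1 := ((h.vanish hy m 0).comp hSt).const_mul τ
      rw [mul_zero] at h1
      refine squeeze_zero (fun j => ?_) (fun j => ?_) h1
      · exact mul_nonneg (hTW _ ((haj j).trans_le (hajS j))).1 (hRnn _ ((haj j).trans_le (hajS j)))
      · simp only [Function.comp, pow_zero, one_mul]
        exact mul_le_mul_of_nonneg_right (hTW _ ((haj j).trans_le (hajS j))).2
          (hRnn _ ((haj j).trans_le (hajS j)))
    have hHa : Tendsto (fun j => H (a j)) atTop (𝓝 0) := by
      have h1 : Tendsto (fun j => rayR F y (a j) ^ m * exp (-(a j) ^ 2 / 2)) atTop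
          (𝓝 (rayR F y y ^ m * exp (-y ^ 2 / 2))) :=
        (((((h.R_cont hy).pow m).mul (by fun_prop : ContinuousOn (fun s : ℝ => exp (-s ^ 2 / 2)) (Ici y)))
          y self_mem_Ici).tendsto).comp hat
      have hR0 : rayR F y y = 0 := by simp [rayR, div_self hy.ne', h.zero]
      rw [hR0, zero_pow (by omega), zero_mul] at h1
      have h2 := (hTc.tendsto _).comp (hlima.const_mul c)
      simpa using h2.mul h1
    have hlimit := le_of_tendsto_of_tendsto
      ((((h.lim_V (m := m) hy hSt).sub (h.prim_start hy sq_exp_deriv (by fun_prop) hat)).neg.div_const 2).sub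
        ((hlimW.sub hlima).const_mul (log (qy m F y + η))))
      ((((hlimW.sub hlima).const_mul (-log (chiK m l) - ((m : ℝ) + 1))).add (hHS.sub hHa)).add
        tendsto_const_nhds) (Eventually.of_forall hst)
    simp only [sub_zero, add_zero] at hlimit
    linarith
  have hlim : Tendsto (fun η : ℝ => -ey m F y / 2 - qy m F y * log (qy m F y + η)) (𝓝[>] 0)
      (𝓝 (-ey m F y / 2 - qy m F y * log (qy m F y))) := by
    have h1 : ContinuousAt (fun η : ℝ => -ey m F y / 2 - qy m F y * log (qy m F y + η)) 0 :=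
      continuousAt_const.sub (continuousAt_const.mul
        ((continuousAt_const.add continuousAt_id).log (by simpa using hq0.ne')))
    simpa using h1.tendsto.mono_left nhdsWithin_le_nhds
  exact le_of_tendsto hlim (eventually_nhdsWithin_of_forall fun η hη => main η hη)

end Vale.Agent.P237.Exact
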