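import Vale.Agent.P237.Uniform.Contact
import Vale.Agent.P237.Asymp.Slices

/-!
# P237: John position with all contact profiles at once

The data that every averaged profile lemma can use, and the regime of large volume, where
Brascamp–Lieb alone gives a contact with a strict profile inequality.
-/

open MeasureTheory Set Metric
open scoped RealInnerProductSpace Pointwise

namespace Vale.Agent.P237.Exact

/-- A symmetric body in John position, with frames at its contact directions. -/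
structure Position (m : ℕ) where
  L : Set (E (m + 2))
  M : ℕ
  c : Fin M → ℝ
  u : Fin M → E (m + 2)
  F : ∀ k, Frame (u k)
  cen : Cen L
  symm : ∀ x ∈ L, -x ∈ L
  ball : closedBall 0 1 ⊆ L
  cpos : ∀ k, 0 < c k
  csum : ∑ k, c k = (m : ℝ) + 2
  slab : ∀ k, ∀ x ∈ L, |⟪u k, x⟫| ≤ 1
  ident : ∀ x, ∑ k, c k * ⟪u k, x⟫ ^ 2 = ‖x‖ ^ 2

lemma slice_cast {n : ℕ} {v w : E (n + 1)} (h : v = w) (F : Frame v) (K : Set (E (n + 1))) (t : ℝ) :
    (h ▸ F).slice K t = F.slice K t := by subst h; rfl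

namespace Position

variable {m : ℕ} (P : Position m)

/-- The profile at the `k`-th contact. -/
noncomputable def prof (k : Fin P.M) (t : ℝ) : ℝ := (P.F k).rad P.L t

/-- `∫ f_k ^ j`. -/
noncomputable def mom (k : Fin P.M) (j : ℕ) : ℝ := ∫ t in Icc (-1 : ℝ) 1, P.prof k t ^ j

lemma exists_index : Nonempty (Fin P.M) := by
  rcases isEmpty_or_nonempty (Fin P.M) with h | h
  · have := P.csum
    simp at this
    linarith [show (0 : ℝ) ≤ m from Nat.cast_nonneg m]
  · exact h

lemma supp_eq (k : Fin P.M) : supp P.L (P.u k) = 1 := by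
  obtain ⟨⟨x, hx, e⟩, h⟩ := supp_spec P.cen.cpt ⟨0, interior_subset P.cen.int⟩ (P.u k)
  refine le_antisymm (e ▸ (le_abs_self _).trans (P.slab k x hx)) ?_
  have := h (P.u k) (P.ball (mem_closedBall_zero_iff.2 (P.F k).norm_axis.le))
  rwa [real_inner_self_eq_norm_sq, (P.F k).norm_axis, one_pow] at this

lemma prof_zero (k : Fin P.M) {t : ℝ} (ht : t ∉ Icc (-1 : ℝ) 1) : P.prof k t = 0 :=
  (P.F k).rad_eq_zero (Nat.succ_pos m) (eq_empty_iff_forall_notMem.2 fun y hy => ht (by
    have h := P.slab k _ hy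
    rw [real_inner_comm, (P.F k).inner_axis_S] at h
    exact abs_le.1 h))

lemma prof_nonneg (k : Fin P.M) (t : ℝ) : 0 ≤ P.prof k t := (P.F k).rad_nonneg (Nat.succ_pos m) t

lemma prof_concave (k : Fin P.M) : ConcaveOn ℝ (Icc (-1) 1) (P.prof k) :=
  (P.F k).rad_concave (Nat.succ_pos m) P.cen.toBody fun t ht => ⟨0, P.ball (by
    rw [mem_closedBall_zero_iff]
    refine (pow_le_pow_iff_left₀ (norm_nonneg _) zero_le_one two_ne_zero).1 ?_
    rw [(P.F k).norm_sq_S, norm_zero]
    nlinarith [ht.1, ht.2])⟩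

lemma prof_even (k : Fin P.M) (t : ℝ) : P.prof k (-t) = P.prof k t := (P.F k).rad_neg P.symm t

lemma semi_le_prof (k : Fin P.M) {t : ℝ} (ht : t ∈ Icc (-1 : ℝ) 1) :
    √(1 - t ^ 2) ≤ P.prof k t := by
  have h := (P.F k).le_rad (Nat.succ_pos m) P.cen.toBody P.ball (abs_le.2 ht)
  rwa [one_pow] at h

lemma slice_vol (k : Fin P.M) (t : ℝ) :
    (volume ((P.F k).slice P.L t)).toReal = Statement.ballVol (m + 1) * P.prof k t ^ (m + 1) :=
  (P.F k).volume_slice_eq (Nat.succ_pos m) t

lemma integral_fun (k : Fin P.M) {psi : ℝ → ℝ} (hpsi : Continuous psi) :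
    ∫ x in P.L, psi ⟪x, P.u k⟫ =
      Statement.ballVol (m + 1) * ∫ t in Icc (-1 : ℝ) 1, P.prof k t ^ (m + 1) * psi t :=
  Uniform.integral_profile P.cen.cpt (P.F k) (fun _ ht => P.prof_zero k ht) hpsi

/-- All contacts share the volume. -/
lemma volume_eq (k : Fin P.M) :
    (volume P.L).toReal = Statement.ballVol (m + 1) * P.mom k (m + 1) := by
  have h := P.integral_fun k (psi := fun _ => 1) continuous_const
  simpa [measureReal_def, mom] using h

lemma volume_pos : 0 < (volume P.L).toReal :=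
  ENNReal.toReal_pos (Measure.measure_pos_of_mem_nhds volume P.cen.nhds_zero).ne'
    P.cen.cpt.measure_lt_top.ne

lemma mom_pos (k : Fin P.M) : 0 < P.mom k (m + 1) := by
  have h := P.volume_pos
  rw [P.volume_eq k] at h
  exact pos_of_mul_pos_right h (ballVol_pos m).le

lemma mom_nonneg (k : Fin P.M) (j : ℕ) : 0 ≤ P.mom k j :=
  setIntegral_nonneg measurableSet_Icc fun t _ => pow_nonneg (P.prof_nonneg k t) _

/-- The shadow integral through the profile. -/
lemma slice_integral (hm : m ≠ 0) (k : Fin P.M) :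
    (∫ t, (volume ((P.F k).slice P.L t)).toReal ^ ((m : ℝ) / (m + 1))) ^ (m + 1) =
      Statement.ballVol (m + 1) ^ m * P.mom k m ^ (m + 1) := by
  obtain ⟨d, hd0, hd⟩ := exists_root (Nat.succ_ne_zero m) (ballVol_pos m).le
  have e : ∀ t, (volume ((P.F k).slice P.L t)).toReal ^ ((m : ℝ) / (m + 1)) =
      d ^ m * P.prof k t ^ m := fun t => by
    rw [show (volume ((P.F k).slice P.L t)).toReal = (d * P.prof k t) ^ (m + 1) by
        rw [mul_pow, hd, P.slice_vol],
      ← Real.rpow_natCast, ← Real.rpow_mul (mul_nonneg hd0 (P.prof_nonneg k t)), ← mul_pow,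
      ← Real.rpow_natCast (d * P.prof k t) m]
    congr 1; push_cast; field_simp
  simp only [e]
  rw [integral_const_mul, mul_pow, ← pow_mul, mul_comm m, pow_mul, hd, mom,
    setIntegral_eq_integral_of_forall_compl_eq_zero
      (fun t ht => by rw [P.prof_zero k ht, zero_pow hm])]

/-- **Fisher constraint**, summed over the contacts. -/
theorem fisher (ph dph : Fin P.M → ℝ → ℝ) (hph : ∀ k t, HasDerivAt (ph k) (dph k t) t)
    (hphc : ∀ k, Continuous (dph k)) (k₀ : Fin P.M) :
    ∑ k, P.c k * ∫ t in Icc (-1 : ℝ) 1, P.prof k t ^ (m + 1) *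
        (2 * dph k t - ((m : ℝ) + 2) * ph k t ^ 2 - 2 * t * ph k t * dph k t) ≤
      ((m : ℝ) + 2) * P.mom k₀ (m + 1) := by
  have h := Fisher.fisher_sum (n := m + 1) P.cen (Nat.succ_pos m) P.ball (u := P.u) (c := P.c)
    (fun k => (P.F k).norm_axis) (fun k => (P.cpos k).le) P.ident ph dph hph hphc
  push_cast at h
  rw [P.volume_eq k₀] at h
  have e : ∀ k, ∫ x in P.L, (2 * dph k ⟪x, P.u k⟫ - ((m : ℝ) + 1 + 1) * ph k ⟪x, P.u k⟫ ^ 2 -
      2 * ⟪x, P.u k⟫ * ph k ⟪x, P.u k⟫ * dph k ⟪x, P.u k⟫) = Statement.ballVol (m + 1) *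
      ∫ t in Icc (-1 : ℝ) 1, P.prof k t ^ (m + 1) *
        (2 * dph k t - ((m : ℝ) + 2) * ph k t ^ 2 - 2 * t * ph k t * dph k t) := fun k => by
    have hc : Continuous (ph k) := continuous_iff_continuousAt.2 fun t => (hph k t).continuousAt
    have hd := hphc k
    rw [P.integral_fun k (psi := fun t => 2 * dph k t - ((m : ℝ) + 1 + 1) * ph k t ^ 2 -
      2 * t * ph k t * dph k t) (by fun_prop), show ((m : ℝ) + 1 + 1) = (m : ℝ) + 2 by ring]
  simp only [e, mul_left_comm (P.c _), ← Finset.mul_sum] at h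
  rw [show ((m : ℝ) + 1 + 1) = (m : ℝ) + 2 by ring, mul_left_comm ((m : ℝ) + 2)] at h
  exact le_of_mul_le_mul_left h (ballVol_pos m)

/-- The second moments add up to that of the body, which is at least that of the ball of the same
volume: with `ρ ^ (m+2) κ_{m+2} = |L|`. -/
theorem moment {ρ : ℝ} (hρ : 0 ≤ ρ)
    (hvol : Statement.ballVol (m + 2) * ρ ^ (m + 2) = (volume P.L).toReal) :
    ((m : ℝ) + 2) / ((m : ℝ) + 4) * Statement.ballVol (m + 2) * ρ ^ (m + 4) ≤
      Statement.ballVol (m + 1) *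
        ∑ k, P.c k * ∫ t in Icc (-1 : ℝ) 1, P.prof k t ^ (m + 1) * t ^ 2 := by
  have hb := bathtub P.cen.cpt hρ ((Frame.volume_ball_eq hρ).trans hvol)
  rw [ball_moment (by omega) hρ] at hb
  have e : ∫ x in P.L, ‖x‖ ^ 2 = Statement.ballVol (m + 1) *
      ∑ k, P.c k * ∫ t in Icc (-1 : ℝ) 1, P.prof k t ^ (m + 1) * t ^ 2 := by
    simp only [← P.ident]
    rw [integral_finsetSum _ fun k _ =>
      (by fun_prop : Continuous fun x : E (m + 2) => P.c k * ⟪P.u k, x⟫ ^ 2).continuousOn
        |>.integrableOn_compact P.cen.cpt, Finset.mul_sum]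
    refine Finset.sum_congr rfl fun k _ => ?_
    rw [integral_const_mul, mul_left_comm, ← P.integral_fun k (psi := fun t => t ^ 2) (by fun_prop)]
    simp only [real_inner_comm (P.u k)]
  rw [← e]
  convert hb using 1
  push_cast
  ring

/-- **Large volume.** Brascamp–Lieb alone gives a contact with a strict profile inequality. -/
theorem large (hm : 1 ≤ m) {C : ℝ} (hC : 0 ≤ C) (hbig : C ^ (m + 2) < (volume P.L).toReal) :
    ∃ k, C * P.mom k (m + 1) ^ m < P.mom k m ^ (m + 1) := by
  by_contra hall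
  simp only [not_exists, not_lt] at hall
  obtain ⟨a, ha, haV⟩ := exists_root (n := m + 2) (by omega) P.volume_pos.le
  have hCa : C < a := lt_of_pow_lt_pow_left₀ (m + 2) ha (haV ▸ hbig)
  have := P.exists_index
  have hv : ∀ k, P.c k • P.u k ≠ 0 := fun k => smul_ne_zero (P.cpos k).ne' (norm_ne_zero_iff.1 (by rw [(P.F k).norm_axis]; norm_num))
  have hn : ∀ k, ‖P.c k • P.u k‖ = P.c k := fun k => by
    rw [norm_smul, (P.F k).norm_axis, mul_one, Real.norm_of_nonneg (P.cpos k).le]
  have hax : ∀ k, ‖P.c k • P.u k‖⁻¹ • (P.c k • P.u k) = P.u k := fun k => by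
    rw [hn, smul_smul, inv_mul_cancel₀ (P.cpos k).ne', one_smul]
  let G : ∀ k, Frame (‖P.c k • P.u k‖⁻¹ • (P.c k • P.u k)) := fun k => (hax k).symm ▸ P.F k
  have hGS : ∀ k t, (volume ((G k).slice P.L t)).toReal = (volume ((P.F k).slice P.L t)).toReal := by
    intro k t
    simp only [G, slice_cast]
  have h := Asymp.slice_product hm P.cen.toBody ⟨0, P.cen.int⟩ hv (ContinuousLinearMap.id ℝ _)
    (show LinearMap.det (LinearMap.id : E (m + 2) →ₗ[ℝ] E (m + 2)) = 1 from LinearMap.det_id)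
    (fun x => by
      simp only [ContinuousLinearMap.id_apply, hn, real_inner_smul_left]
      rw [P.csum]
      push_cast
      rw [div_self (by positivity), one_mul, ← P.ident x]
      refine Finset.sum_congr rfl fun k _ => ?_
      have := (P.cpos k).ne'
      field_simp)
    hv G ha haV
  simp only [ContinuousLinearMap.id_apply, hn, Asymp.sv, hGS,
    P.slice_integral (by omega : m ≠ 0)] at h
  have hle : ∀ k, P.c k * (Statement.ballVol (m + 1) ^ m * P.mom k m ^ (m + 1)) ≤
      P.c k * (C * a ^ ((m + 2) * m)) := fun k => by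
    refine mul_le_mul_of_nonneg_left ?_ (P.cpos k).le
    rw [pow_mul, haV, P.volume_eq k, mul_pow, mul_left_comm]
    exact mul_le_mul_of_nonneg_left (hall k) (pow_nonneg (ballVol_pos m).le _)
  have h2 := h.trans (Finset.sum_le_sum fun k _ => hle k)
  rw [← Finset.sum_mul, P.csum, pow_add, pow_one] at h2
  have h3 := le_of_mul_le_mul_left h2 (by positivity : (0 : ℝ) < (m : ℝ) + 2)
  have hapos : 0 < a := lt_of_le_of_lt hC hCa
  exact absurd (le_of_mul_le_mul_right h3 (pow_pos hapos _)) (not_le.2 hCa)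

/-- If one profile is that of the ball, the body is the ball. -/
theorem eq_ball {k : Fin P.M} (h : ∀ t ∈ Ioo (-1 : ℝ) 1, P.prof k t ≤ √(1 - t ^ 2)) :
    P.L = closedBall 0 1 := by
  have fconc := P.prof_concave k
  have f1 : P.prof k 1 ≤ 0 := by
    refine le_of_forall_pos_le_add fun ε hε => ?_
    set x := 1 - min (ε ^ 2 / 8) (1 / 2) with hx
    have hmin : 0 < min (ε ^ 2 / 8) (1 / 2) := lt_min (by positivity) (by norm_num)
    have hxm : min (ε ^ 2 / 8) (1 / 2) ≤ 1 / 2 := min_le_right _ _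
    have h1 := fconc.2 (show (0 : ℝ) ∈ Icc (-1 : ℝ) 1 by norm_num)
      (show (1 : ℝ) ∈ Icc (-1 : ℝ) 1 by norm_num) (show 0 ≤ 1 - x by linarith)
      (show 0 ≤ x by linarith) (by ring)
    simp only [smul_eq_mul, mul_zero, zero_add, mul_one] at h1
    have h2 := h x ⟨by linarith, by linarith⟩
    have h3 : √(1 - x ^ 2) ≤ ε / 2 := by
      rw [Real.sqrt_le_iff]
      refine ⟨by linarith, ?_⟩
      have := min_le_left (ε ^ 2 / 8) (1 / 2)
      nlinarith
    have h0 := P.prof_nonneg k 0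
    have h4 : 0 ≤ (1 - x) * P.prof k 0 := mul_nonneg (by linarith) h0
    have h5 : x * P.prof k 1 ≤ ε / 2 := by linarith
    have h6 : 1 / 2 ≤ x := by linarith
    nlinarith [P.prof_nonneg k 1]
  refine eq_ball_of_rad (Nat.succ_pos m) (P.F k) P.cen.toBody one_pos P.ball
    (fun t ht => P.prof_zero k fun h => absurd (abs_le.2 h) (not_le.2 ht)) fun t ht => ?_
  rw [one_pow]
  rcases eq_or_lt_of_le ht with h1 | h1
  · have e : P.prof k t = P.prof k 1 := by
      rcases abs_eq zero_le_one |>.1 h1 with rfl | rfl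
      · rfl
      · exact P.prof_even k 1
    show P.prof k t ≤ _
    rw [e]
    exact f1.trans (Real.sqrt_nonneg _)
  · exact h t (abs_lt.1 h1)

end Position

variable {m : ℕ}

/-- Every symmetric body has a John position. -/
theorem exists_position {Z : Set (E (m + 2))} (hZ : Cen Z) (hs : ∀ x ∈ Z, -x ∈ Z) :
    ∃ (T : E (m + 2) ≃L[ℝ] E (m + 2)) (P : Position m), P.L = T '' Z := by
  obtain ⟨T, M, c, u, hball, hc, hc1, hu, hslab, hid⟩ :=
    Uniform.exists_john (Nat.succ_ne_zero (m + 1)) hZ hs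
  set s := Finset.univ.filter fun k => 0 < c k with hsdef
  set e := s.equivFin.symm with he
  have hmem : ∀ j : Fin s.card, 0 < c (e j) := fun j => (Finset.mem_filter.1 (e j).2).2
  have hsum : ∀ G : Fin M → ℝ, ∑ j : Fin s.card, c (e j) * G (e j) = ∑ k, c k * G k := fun G => by
    rw [e.sum_comp (fun k : s => c k * G k), Finset.sum_coe_sort s (fun k => c k * G k)]
    exact Finset.sum_filter_of_ne fun k _ h => (hc k).lt_of_ne' (left_ne_zero_of_mul h)
  refine ⟨T, ⟨T '' Z, s.card, fun j => c (e j), fun j => u (e j),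
    fun j => Classical.choice (exists_frame (hu _ (hmem j))),
    ⟨⟨hZ.conv.linear_image (T.toLinearEquiv : E (m + 2) →ₗ[ℝ] E (m + 2)),
      hZ.cpt.image T.continuous⟩, interior_mono hball
      (by rw [interior_closedBall _ one_ne_zero]; exact mem_ball_self one_pos)⟩,
    ?_, hball, hmem, ?_, fun j => hslab _, fun x => ?_⟩, rfl⟩
  · rintro _ ⟨x, hx, rfl⟩
    exact ⟨-x, hs x hx, map_neg T x⟩
  · have := hsum fun _ => 1
    simp only [mul_one, hc1] at this
    rw [this]; push_cast; ring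
  · rw [hsum fun k => ⟪u k, x⟫ ^ 2]; exact hid x

end Vale.Agent.P237.Exact
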