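import Vale.Agent.P237.Exact.PerY
import Vale.Agent.P237.Uniform.Shape

/-!
# P237: the inequality at one height for a concave profile, by cutting the end value to zero
-/

open MeasureTheory Set Filter Topology Real intervalIntegral

namespace Vale.Agent.P237.Exact

open Vale.Agent.P237.Uniform

/-- A shape together with the concave function it comes from. -/
structure CShape (f F D : ℝ → ℝ) : Prop where
  shape : Shape F D
  conc : ConcaveOn ℝ (Icc (-1) 1) f
  agree : ∀ t < 1, F t = f t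

variable {m : ℕ} {f F D : ℝ → ℝ}

lemma CShape.slope_le (h : CShape f F D) {x z : ℝ} (hx : x ∈ Ioo (0 : ℝ) 1) (hxz : x < z)
    (hz : z < 1) : slope f x z ≤ D x := by
  have hs := (hasDerivWithinAt_iff_tendsto_slope' (s := Ioi x) (fun h => lt_irrefl x h)).1
    (h.shape.deriv x hx)
  refine ge_of_tendsto hs ?_
  filter_upwards [Ioo_mem_nhdsGT hxz] with w hw
  have hsl := h.conc.slope_anti (x := x) ⟨by linarith [hx.1], hx.2.le⟩
    ⟨⟨by linarith [hx.1, hw.1], by linarith [hw.2]⟩, hw.1.ne'⟩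
    ⟨⟨by linarith [hx.1], hz.le⟩, hxz.ne'⟩ hw.2.le
  refine hsl.trans (le_of_eq ?_)
  simp only [slope_def_field]
  rw [h.agree w (hw.2.trans hz), h.agree x hx.2]

lemma CShape.le_slope (h : CShape f F D) {x t : ℝ} (hx : x ∈ Ioo (0 : ℝ) 1) (hxt : x < t)
    (ht : t < 1) : D t ≤ slope f x t := by
  have ht' : t ∈ Ioo (0 : ℝ) 1 := ⟨hx.1.trans hxt, ht⟩
  have hs := (hasDerivWithinAt_iff_tendsto_slope' (s := Ioi t) (fun h => lt_irrefl t h)).1
    (h.shape.deriv t ht')
  refine le_of_tendsto hs ?_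
  filter_upwards [Ioo_mem_nhdsGT ht] with w hw
  have hsl := h.conc.slope_anti (x := t) ⟨by linarith [ht'.1], ht.le⟩
    ⟨⟨by linarith [hx.1], hx.2.le⟩, hxt.ne⟩
    ⟨⟨by linarith [ht'.1, hw.1], hw.2.le⟩, hw.1.ne'⟩ (hxt.trans hw.1).le
  refine le_trans (le_of_eq ?_) (hsl.trans_eq (slope_comm f t x))
  simp only [slope_def_field]
  rw [h.agree w hw.2, h.agree t ht]

lemma CShape.D_anti (h : CShape f F D) : AntitoneOn D (Ioo 0 1) := by
  intro x hx t ht hxt
  rcases hxt.eq_or_lt with rfl | hlt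
  · exact le_rfl
  · exact (h.le_slope hx hlt ht.2).trans (h.slope_le hx hlt ht.2)

lemma CShape.deriv_off (h : CShape f F D) :
    ∃ S : Set ℝ, S.Countable ∧ ∀ t ∈ Ioo (0 : ℝ) 1, t ∉ S → HasDerivAt F (D t) t := by
  refine ⟨_, h.D_anti.countable_not_continuousWithinAt, fun t ht hS => ?_⟩
  have hc : ContinuousAt D t := by
    have : ContinuousWithinAt D (Ioo 0 1) t := by
      by_contra hcc; exact hS ⟨ht, hcc⟩
    exact this.continuousAt (Ioo_mem_nhds ht.1 ht.2)
  rw [hasDerivAt_iff_tendsto_slope, ← nhdsLT_sup_nhdsGT, tendsto_sup]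
  refine ⟨?_, (hasDerivWithinAt_iff_tendsto_slope' (s := Ioi t) (fun h => lt_irrefl t h)).1
    (h.shape.deriv t ht)⟩
  have hD : Tendsto D (𝓝[<] t) (𝓝 (D t)) := hc.tendsto.mono_left nhdsWithin_le_nhds
  have e : ∀ᶠ x in 𝓝[<] t, slope F t x = slope f x t ∧ x ∈ Ioo (0 : ℝ) t := by
    filter_upwards [Ioo_mem_nhdsLT ht.1] with x hx
    refine ⟨?_, hx⟩
    rw [slope_comm]
    simp only [slope_def_field]
    rw [h.agree x (hx.2.trans ht.2), h.agree t ht.2]
  refine tendsto_of_tendsto_of_tendsto_of_le_of_le' tendsto_const_nhds hD ?_ ?_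
  · filter_upwards [e] with x hx
    rw [hx.1]; exact h.le_slope ⟨hx.2.1, hx.2.2.trans ht.2⟩ hx.2.2 ht.2
  · filter_upwards [e] with x hx
    rw [hx.1]; exact h.slope_le ⟨hx.2.1, hx.2.2.trans ht.2⟩ hx.2.2 ht.2

lemma CShape.D_bound (h : CShape f F D) {b : ℝ} (hb : b < 1) :
    ∃ B, 0 ≤ B ∧ ∀ t ∈ Ioo (0 : ℝ) 1, t ≤ b → |D t| ≤ B := by
  set z := (max b 0 + 1) / 2 with hz
  have hm : max b 0 < 1 := max_lt hb zero_lt_one
  refine ⟨F 0 / (z - max b 0), div_nonneg (h.shape.nonneg ⟨le_rfl, zero_le_one⟩)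
    (by linarith), fun t ht htb => ?_⟩
  have htz : t < z := by linarith [le_max_left b 0]
  have hz1 : z < 1 := by linarith
  have hs := h.slope_le ht htz hz1
  simp only [slope_def_field] at hs
  rw [← h.agree z hz1, ← h.agree t ht.2] at hs
  have h1 := h.shape.anti ⟨le_rfl, zero_le_one⟩ (Ioo_subset_Icc_self ht) ht.1.le
  have h2 := h.shape.nonneg (t := z) ⟨by linarith [ht.1], hz1.le⟩
  rw [abs_of_nonpos (h.shape.dnonpos t ht)]
  have h3 : -(F 0 / (z - max b 0)) ≤ (F z - F t) / (z - t) := by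
    rw [neg_le, ← neg_div]
    refine div_le_div₀ (h.shape.nonneg ⟨le_rfl, zero_le_one⟩) (by linarith) (by linarith) ?_
    linarith [le_max_left b 0]
  linarith

/-- A measurable version of the right derivative. -/
noncomputable def dmeas (f : ℝ → ℝ) (t : ℝ) : ℝ := derivWithin f (Ioi t) t

lemma CShape.dmeas_eq (h : CShape f F D) {t : ℝ} (ht : t ∈ Ioo (0 : ℝ) 1) : dmeas f t = D t := by
  have hd : HasDerivWithinAt f (D t) (Ioi t) t := (h.shape.deriv t ht).congr_of_eventuallyEq (by
    filter_upwards [mem_nhdsWithin_of_mem_nhds (Iio_mem_nhds ht.2)] with x hx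
    exact (h.agree x hx).symm) (h.agree t ht.2).symm
  exact hd.derivWithin (uniqueDiffWithinAt_Ioi t)

/-- The cut profile. -/
noncomputable def cutF (F : ℝ → ℝ) (j : ℕ) (t : ℝ) : ℝ := F t * (1 - t ^ (j + 1))

/-- Its derivative. -/
noncomputable def cutD (f F : ℝ → ℝ) (j : ℕ) (t : ℝ) : ℝ :=
  dmeas f t * (1 - t ^ (j + 1)) - F (min (max t 0) 1) * (((j : ℝ) + 1) * t ^ j)

lemma CShape.reg (h : CShape f F D) (j : ℕ) : Reg (cutF F j) (cutD f F j) where
  cont := h.shape.cont.mul (by fun_prop)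
  anti := fun s hs t ht hst => by
    simp only [cutF]
    exact mul_le_mul (h.shape.anti hs ht hst)
      (by linarith [pow_le_pow_left₀ hs.1 hst (j + 1)])
      (by linarith [pow_le_one₀ (n := j + 1) ht.1 ht.2]) (h.shape.nonneg hs)
  pos := fun t ht => mul_pos (h.shape.pos t ht)
    (by linarith [pow_lt_one₀ ht.1 ht.2 (show j + 1 ≠ 0 by omega)])
  zero := by simp [cutF]
  dnonpos := fun t ht => by
    simp only [cutD]
    rw [h.dmeas_eq ht, max_eq_left ht.1.le, min_eq_left ht.2.le]
    have h1 : D t * (1 - t ^ (j + 1)) ≤ 0 := mul_nonpos_of_nonpos_of_nonneg (h.shape.dnonpos t ht)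
      (by linarith [pow_le_one₀ (n := j + 1) ht.1.le ht.2.le])
    have h2 : 0 ≤ F t * (((j : ℝ) + 1) * t ^ j) :=
      mul_nonneg (h.shape.nonneg (Ioo_subset_Icc_self ht)) (mul_nonneg (by positivity)
        (pow_nonneg ht.1.le _))
    linarith
  meas := by
    have hm : ∀ t : ℝ, min (max t 0) 1 ∈ Icc (0 : ℝ) 1 := fun t =>
      ⟨le_min (le_max_right _ _) zero_le_one, min_le_right _ _⟩
    exact ((measurable_derivWithin_Ioi f).mul (by fun_prop)).sub
      (((h.shape.cont.comp_continuous (by fun_prop) hm).mul (by fun_prop)).measurable)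
  bdd := fun b hb => by
    obtain ⟨B, hB0, hB⟩ := h.D_bound hb
    refine ⟨B + F 0 * ((j : ℝ) + 1), fun t ht => ?_⟩
    have ht' : t ∈ Ioo (0 : ℝ) 1 := ⟨ht.1, ht.2.trans_lt hb⟩
    simp only [cutD]
    rw [h.dmeas_eq ht', max_eq_left ht'.1.le, min_eq_left ht'.2.le]
    refine (abs_sub _ _).trans (add_le_add ?_ ?_)
    · rw [abs_mul]
      refine (mul_le_of_le_one_right (abs_nonneg _) ?_).trans (hB t ht' ht.2)
      rw [abs_le]
      constructor <;> linarith [pow_nonneg ht'.1.le (j + 1), pow_le_one₀ (n := j + 1) ht'.1.le ht'.2.le]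
    · have hp := pow_le_one₀ (n := j) ht'.1.le ht'.2.le
      have hF := h.shape.nonneg (Ioo_subset_Icc_self ht')
      rw [abs_of_nonneg (mul_nonneg hF (mul_nonneg (by positivity) (pow_nonneg ht'.1.le _)))]
      exact mul_le_mul (h.shape.anti ⟨le_rfl, zero_le_one⟩ (Ioo_subset_Icc_self ht') ht'.1.le)
        (mul_le_of_le_one_right (by positivity) hp) (mul_nonneg (by positivity) (pow_nonneg ht'.1.le _))
        (h.shape.nonneg ⟨le_rfl, zero_le_one⟩)
  deriv := by
    obtain ⟨S, hS, hd⟩ := h.deriv_off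
    refine ⟨S, hS, fun t ht htS => ?_⟩
    have h1 := (hd t ht htS).mul (((hasDerivAt_pow (j + 1) t).const_sub 1))
    refine h1.congr_deriv ?_
    simp only [cutD]
    rw [h.dmeas_eq ht, max_eq_left ht.1.le, min_eq_left ht.2.le]
    push_cast
    simp
    ring

/-- **The inequality at one height** for a concave profile. -/
theorem CShape.per_y (h : CShape f F D) (hm : 1 ≤ m) {y l : ℝ} (hy : 0 < y) (hl : 0 < l)
    (hK : 0 < chiK m l) :
    -ey m F y / 2 - qy m F y * log (qy m F y) ≤
      qy m F y * (-log (chiK m l) - ((m : ℝ) + 1)) + l / 2 * byv m F D y := by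
  have hF0 : 0 ≤ F 0 := h.shape.nonneg ⟨le_rfl, zero_le_one⟩
  have hcut : ∀ s, y < s → y / s ∈ Ioo (0 : ℝ) 1 := fun s hs =>
    ⟨div_pos hy (hy.trans hs), (div_lt_one (hy.trans hs)).2 hs⟩
  have hlimF : ∀ s, y < s → Tendsto (fun j => rayR (cutF F j) y s) atTop (𝓝 (rayR F y s)) := by
    intro s hs
    have hp : Tendsto (fun j : ℕ => (y / s) ^ (j + 1)) atTop (𝓝 0) :=
      (tendsto_pow_atTop_nhds_zero_of_lt_one (hcut s hs).1.le (hcut s hs).2).comp
        (tendsto_add_atTop_nat 1)
    simpa [rayR, cutF] using ((hp.const_sub 1).const_mul (F (y / s))).const_mul s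
  have hbR : ∀ j s, y < s → |rayR (cutF F j) y s| ≤ s * F 0 := fun j s hs => by
    have hR := (h.reg j).R_le hy hs.le
    have hR0 := (h.reg j).R_nonneg hy hs.le
    rw [abs_of_nonneg hR0]
    simpa [cutF] using hR
  have hint : ∀ i, IntegrableOn (fun s : ℝ => s ^ i * exp (-s ^ 2 / 2)) (Ioi y) := fun i => by
    refine ((integrable_pow_gauss i (show (0 : ℝ) < 1 / 2 by norm_num)).mono_set
      (Ioi_subset_Ioi hy.le)).congr_fun (fun s _ => ?_) measurableSet_Ioi
    simp only
    congr 2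
    ring
  have hqlim : ∀ g : ℝ → ℝ, Continuous g →
      IntegrableOn (fun s => (s * F 0) ^ (m + 1) * |g s|) (Ioi y) →
      Tendsto (fun j => ∫ s in Ioi y, rayR (cutF F j) y s ^ (m + 1) * g s) atTop
        (𝓝 (∫ s in Ioi y, rayR F y s ^ (m + 1) * g s)) := by
    intro g hg hi
    refine tendsto_integral_of_dominated_convergence _ (fun j => ?_) hi (fun j => ?_) ?_
    · exact ((((h.reg j).R_cont hy).mono Ioi_subset_Ici_self).pow _ |>.mul
        hg.continuousOn).aestronglyMeasurable measurableSet_Ioi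
    · filter_upwards [ae_restrict_mem measurableSet_Ioi] with s hs
      rw [Real.norm_eq_abs, abs_mul, abs_pow]
      exact mul_le_mul_of_nonneg_right (pow_le_pow_left₀ (abs_nonneg _) (hbR j s hs) _) (abs_nonneg _)
    · filter_upwards [ae_restrict_mem measurableSet_Ioi] with s hs
      exact ((hlimF s hs).pow _).mul_const _
  have hq : Tendsto (fun j => qy m (cutF F j) y) atTop (𝓝 (qy m F y)) := by
    refine (hqlim _ (by fun_prop) ?_).const_mul _
    refine IntegrableOn.congr_fun ((hint (m + 2)).const_mul (F 0 ^ (m + 1))) (fun s hs => ?_)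
      measurableSet_Ioi
    have hs0 : 0 < s := hy.trans hs
    rw [abs_of_pos (mul_pos hs0 (exp_pos _)), mul_pow]
    ring
  have he : Tendsto (fun j => ey m (cutF F j) y) atTop (𝓝 (ey m F y)) := by
    refine (hqlim _ (by fun_prop) ?_).const_mul _
    refine Integrable.mono' ((((hint (m + 4)).add ((hint (m + 2)).const_mul 2))).const_mul
      (F 0 ^ (m + 1))) (Continuous.aestronglyMeasurable (by fun_prop)) ?_
    filter_upwards [ae_restrict_mem measurableSet_Ioi] with s hs
    have hs0 : 0 < s := hy.trans hs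
    rw [Real.norm_of_nonneg (by positivity)]
    have h1 : |(s ^ 3 - 2 * s) * exp (-s ^ 2 / 2)| ≤ (s ^ 3 + 2 * s) * exp (-s ^ 2 / 2) := by
      rw [abs_mul, abs_of_pos (exp_pos _)]
      refine mul_le_mul_of_nonneg_right ?_ (exp_pos _).le
      rw [abs_le]
      constructor <;> nlinarith [pow_pos hs0 3]
    refine (mul_le_mul_of_nonneg_left h1 (by positivity)).trans (le_of_eq ?_)
    simp only [Pi.add_apply, mul_pow]
    ring
  have hb : Tendsto (fun j => byv m (cutF F j) (cutD f F j) y) atTop (𝓝 (byv m F D y)) := by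
    refine tendsto_integral_of_dominated_convergence
      (fun s => F 0 ^ (m - 1) * (s ^ (m + 2) * exp (-s ^ 2 / 2))) (fun j => ?_)
      ((hint (m + 2)).const_mul _) (fun j => ?_) ?_
    · exact ((h.reg j).intB hm hy).aestronglyMeasurable
    · filter_upwards [ae_restrict_mem measurableSet_Ioi] with s hs
      obtain ⟨h1, h2⟩ := (h.reg j).u_ge hy hs
      have hs0 : 0 < s := hy.trans hs
      have hR0 := (h.reg j).R_nonneg hy (le_of_lt hs)
      rw [Real.norm_of_nonneg (div_nonneg (by positivity) (h1.le.trans h2))]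
      refine (div_le_div_of_nonneg_left (by positivity) h1 h2).trans ?_
      obtain ⟨i, rfl⟩ : ∃ i, m = i + 1 := ⟨m - 1, by omega⟩
      have hle : cutF F j (y / s) ≤ F 0 := by
        have := (h.reg j).anti ⟨le_rfl, zero_le_one⟩ (div_mem_Icc hy (le_of_lt hs))
          (div_mem_Icc hy (le_of_lt hs)).1
        simpa [cutF] using this
      rw [Nat.add_sub_cancel, show rayR (cutF F j) y s ^ (i + 1) * (s ^ 2 * exp (-s ^ 2 / 2)) /
          cutF F j (y / s) = cutF F j (y / s) ^ i * (s ^ (i + 1 + 2) * exp (-s ^ 2 / 2)) by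
        rw [rayR, mul_pow, pow_succ (cutF F j (y / s))]; field_simp; ring]
      exact mul_le_mul_of_nonneg_right (pow_le_pow_left₀ h1.le hle _) (by positivity)
    · filter_upwards [ae_restrict_mem measurableSet_Ioi] with s hs
      have ht := hcut s hs
      have hu : 0 < rayU F D y s := by
        have := h.shape.pos _ ⟨ht.1.le, ht.2⟩
        have := h.shape.dnonpos _ ht
        simp only [rayU]; nlinarith [ht.1]
      have hp : Tendsto (fun j : ℕ => (y / s) ^ (j + 1)) atTop (𝓝 0) :=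
        (tendsto_pow_atTop_nhds_zero_of_lt_one ht.1.le ht.2).comp (tendsto_add_atTop_nat 1)
      have hp2 : Tendsto (fun j : ℕ => ((j : ℝ) + 1) * (y / s) ^ j) atTop (𝓝 0) := by
        have h1 := tendsto_self_mul_const_pow_of_lt_one ht.1.le ht.2
        have h2 := tendsto_pow_atTop_nhds_zero_of_lt_one ht.1.le ht.2
        simpa [add_mul] using h1.add h2
      have hU : Tendsto (fun j => rayU (cutF F j) (cutD f F j) y s) atTop (𝓝 (rayU F D y s)) := by
        have h1 : Tendsto (fun j => cutF F j (y / s)) atTop (𝓝 (F (y / s))) := by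
          simpa [cutF] using (hp.const_sub 1).const_mul (F (y / s))
        have h2 : Tendsto (fun j => cutD f F j (y / s)) atTop (𝓝 (D (y / s))) := by
          simp only [cutD, h.dmeas_eq ht]
          simpa using ((hp.const_sub 1).const_mul (D (y / s))).sub
            (hp2.const_mul (F (min (max (y / s) 0) 1)))
        exact h1.sub (h2.const_mul _)
      exact (((hlimF s hs).pow m).mul_const _).div hU hu.ne'
  exact le_of_tendsto_of_tendsto ((he.neg.div_const 2).sub
      ((Real.continuous_mul_log.tendsto _).comp hq))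
    ((hq.mul_const _).add (hb.const_mul _))
    (Eventually.of_forall fun j => Exact.per_y (h.reg j) hm hy hl hK)

end Vale.Agent.P237.Exact
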